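import Vale.Agent.P146.Div.Defs
import Vale.Agent.P146.Gibbs
import Vale.Agent.P146.Cheb
import Vale.Agent.P146.DabRules
import Vale.Agent.P146.Interp

/-!
Elementary facts about the pressure of the tilted model: positivity and the tangent at zero tilt.
-/

noncomputable section

open MeasureTheory ProbabilityTheory
open scoped BigOperators

namespace Vale.Agent.P146.Div

variable {n : ℕ}

attribute [local instance] Interp.isProb

theorem tame_bform (m : ℕ) (s s' : Fin n → Bool) : Tame (fun g : Cfg n => bform m g s s') := by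
  have h : (fun g : Cfg n => bform m g s s') =
      fun g => (1 / (n : ℝ)) * ∑ a, ∑ b, spin (s a) * spin (s' b) * uEnt m a b g := by
    funext g
    unfold bform
    rw [div_eq_mul_inv, one_div, mul_comm]
    congr 1
    exact Finset.sum_congr rfl fun a _ => Finset.sum_congr rfl fun b _ => by ring
  rw [h]
  exact Tame.const_mul _ (Tame.sum _ fun a _ => Tame.sum _ fun b _ =>
    Tame.const_mul _ (Tame.uEnt m a b))

theorem tame_energy (s : Fin n → Bool) : Tame (fun g : Cfg n => energy g s) := by
  have h : (fun g : Cfg n => energy g s) = fun g => ∑ p : Pair n,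
      (spin (s p.1.1) * spin (s p.1.2) / Real.sqrt n) * g s(p.1.1, p.1.2) := by
    funext g
    simp only [energy, hamiltonian, Finset.sum_div]
    exact Finset.sum_congr rfl fun p _ => by ring
  rw [h]
  exact Tame.sum _ fun p _ => Tame.const_mul _ (Tame.coord _)

theorem tame_tiltE (β : ℝ) (m : ℕ) (t : ℝ) (s : Fin n → Bool) :
    Tame (fun g : Cfg n => tiltE β m t g s) := by
  unfold tiltE
  exact Tame.add (Tame.const_mul β (tame_energy s))
    (Tame.const_mul _ (Tame.const_mul _ (tame_bform m s s)))

/-- The logarithm of a finite exponential sum is controlled by the exponents. -/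
theorem abs_log_sum_exp_le {ι : Type*} [Fintype ι] [Nonempty ι] (E : ι → ℝ) :
    |Real.log (∑ s, Real.exp (E s))| ≤ Real.log (Fintype.card ι) + ∑ s, |E s| := by
  obtain ⟨s₀⟩ := ‹Nonempty ι›
  have hS : ∀ s, |E s| ≤ ∑ u, |E u| := fun s =>
    Finset.single_le_sum (f := fun u => |E u|) (fun u _ => abs_nonneg _) (Finset.mem_univ s)
  have hpos : 0 < ∑ s, Real.exp (E s) :=
    Finset.sum_pos (fun s _ => Real.exp_pos _) Finset.univ_nonempty
  have hc : 0 ≤ Real.log (Fintype.card ι) := Real.log_natCast_nonneg _
  have hup : Real.log (∑ s, Real.exp (E s)) ≤ Real.log (Fintype.card ι) + ∑ s, |E s| := by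
    have h : ∑ s, Real.exp (E s) ≤ (Fintype.card ι : ℝ) * Real.exp (∑ u, |E u|) := by
      rw [← nsmul_eq_mul]
      exact Finset.sum_le_card_nsmul _ _ _ fun s _ =>
        Real.exp_le_exp.2 ((le_abs_self _).trans (hS s))
    refine (Real.log_le_log hpos h).trans_eq ?_
    rw [Real.log_mul (Nat.cast_ne_zero.2 Fintype.card_ne_zero) (Real.exp_ne_zero _), Real.log_exp]
  have hlo : E s₀ ≤ Real.log (∑ s, Real.exp (E s)) := by
    rw [Real.le_log_iff_exp_le hpos]
    exact Finset.single_le_sum (f := fun s => Real.exp (E s)) (fun s _ => (Real.exp_pos _).le)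
      (Finset.mem_univ s₀)
  rw [abs_le]
  refine ⟨?_, hup⟩
  linarith [(abs_le.1 (hS s₀)).1]

theorem integrable_logSum (β : ℝ) (m : ℕ) (t : ℝ) :
    Integrable (fun g : Cfg n => Real.log (∑ s : Fin n → Bool, Real.exp (tiltE β m t g s)))
      (gauss (Edge n)) := by
  have hc : ∀ s, Continuous fun g : Cfg n => tiltE β m t g s := fun s =>
    (tame_tiltE β m t s).continuous
  refine ((integrable_const (Real.log (Fintype.card (Fin n → Bool)))).add
    (integrable_finsetSum Finset.univ fun s _ => (tame_tiltE β m t s).integrable.abs)).mono'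
    (Continuous.log (by fun_prop) fun g =>
      (Finset.sum_pos (fun s _ => Real.exp_pos _) Finset.univ_nonempty).ne').aestronglyMeasurable
    (.of_forall fun g => ?_)
  rw [Real.norm_eq_abs]
  simpa using abs_log_sum_exp_le fun s : Fin n → Bool => tiltE β m t g s

/-- Annealing from below: the pressure is non-negative. -/
theorem tiltP_nonneg (β : ℝ) (m : ℕ) : 0 ≤ tiltP n β m 0 := by
  unfold tiltP
  refine mul_nonneg (by positivity) ?_
  set s₀ : Fin n → Bool := fun _ => true
  have h0 : mean (fun g : Cfg n => β * energy g s₀) = 0 := by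
    have hcoord : ∀ e : Edge n, ∫ g, g e ∂gauss (Edge n) = 0 := fun e => by
      have h := gauss_ibp (f := fun _ : Cfg n => (1 : ℝ)) (Tame.const 1) e
      simpa [pd_const] using h
    unfold mean
    simp only [energy, hamiltonian, integral_const_mul, integral_div]
    rw [integral_finsetSum _ fun p _ => ((Tame.coord _).integrable.mul_const _).mul_const _]
    simp [integral_mul_const, hcoord]
  have hle : mean (fun g : Cfg n => β * energy g s₀) ≤
      mean fun g : Cfg n => Real.log (∑ s : Fin n → Bool, Real.exp (tiltE β m 0 g s)) := by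
    refine integral_mono (Tame.const_mul β (tame_energy s₀)).integrable
      (integrable_logSum β m 0) fun g => ?_
    show β * energy g s₀ ≤ Real.log (∑ s : Fin n → Bool, Real.exp (tiltE β m 0 g s))
    rw [Real.le_log_iff_exp_le (Finset.sum_pos (fun s _ => Real.exp_pos _) Finset.univ_nonempty)]
    refine le_trans (le_of_eq ?_) (Finset.single_le_sum
      (f := fun s : Fin n → Bool => Real.exp (tiltE β m 0 g s))
      (fun s _ => (Real.exp_pos _).le) (Finset.mem_univ s₀))
    simp [tiltE]
  linarith

/-- At every disorder the log-partition function lies above its tangent at zero tilt. -/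
theorem logSum_tangent (β : ℝ) (m : ℕ) (t : ℝ) (g : Cfg n) :
    Real.log (∑ s : Fin n → Bool, Real.exp (tiltE β m 0 g s)) +
        t * ∑ s : Fin n → Bool, gibbs β g s * (β / 2 * ((n : ℝ) * bform m g s s)) ≤
      Real.log (∑ s : Fin n → Bool, Real.exp (tiltE β m t g s)) := by
  set X : Cfg n → (Fin n → Bool) → ℝ := fun g s => β / 2 * ((n : ℝ) * bform m g s s) with hX
  have hZ : 0 < ∑ s : Fin n → Bool, Real.exp (β * energy g s) := partition_pos β g
  have hJ := (convexOn_exp).map_sum_le (t := Finset.univ) (w := fun s => gibbs β g s)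
    (p := fun s => t * X g s) (fun s _ => gibbs_nonneg β g s) (gibbs_sum β g)
    (fun s _ => Set.mem_univ _)
  simp only [smul_eq_mul] at hJ
  have e : ∑ s : Fin n → Bool, Real.exp (tiltE β m t g s) =
      (∑ s : Fin n → Bool, Real.exp (β * energy g s)) *
        ∑ s : Fin n → Bool, gibbs β g s * Real.exp (t * X g s) := by
    rw [Finset.mul_sum]
    refine Finset.sum_congr rfl fun s _ => ?_
    rw [gibbs, ← mul_assoc, mul_div_cancel₀ _ hZ.ne', ← Real.exp_add]
    congr 1
    simp only [tiltE, hX]
    ring
  have hpos := lt_of_lt_of_le (Real.exp_pos _) hJ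
  rw [e, Real.log_mul hZ.ne' hpos.ne']
  refine add_le_add (le_of_eq ?_) ?_
  · simp [tiltE]
  · rw [Finset.mul_sum, Real.le_log_iff_exp_le hpos]
    refine le_trans (le_of_eq ?_) hJ
    exact congrArg _ (Finset.sum_congr rfl fun s _ => by ring)

/-- The tilted pressure lies above its tangent at zero tilt. -/
theorem tiltP_tangent (hn : n ≠ 0) (β : ℝ) (m : ℕ) (t : ℝ) :
    tiltP n β m 0 + t * slope0 n β m ≤ tiltP n β m t := by
  set X : Cfg n → (Fin n → Bool) → ℝ := fun g s => β / 2 * ((n : ℝ) * bform m g s s) with hX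
  have hpt : ∀ g : Cfg n,
      Real.log (∑ s : Fin n → Bool, Real.exp (tiltE β m 0 g s)) +
          t * ∑ s : Fin n → Bool, gibbs β g s * X g s ≤
        Real.log (∑ s : Fin n → Bool, Real.exp (tiltE β m t g s)) := logSum_tangent β m t
  have hint : Tame (fun g : Cfg n => ∑ s : Fin n → Bool, gibbs β g s * X g s) :=
    Tame.sum _ fun s _ =>
      Tame.mul (Tame.gibbs β s) (Tame.const_mul _ (Tame.const_mul _ (tame_bform m s s)))
  have key : (∫ g, Real.log (∑ s : Fin n → Bool, Real.exp (tiltE β m 0 g s)) ∂gauss (Edge n)) +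
      t * ∫ g, ∑ s : Fin n → Bool, gibbs β g s * X g s ∂gauss (Edge n) ≤
      ∫ g, Real.log (∑ s : Fin n → Bool, Real.exp (tiltE β m t g s)) ∂gauss (Edge n) := by
    rw [← integral_const_mul, ← integral_add (integrable_logSum β m 0)
      (hint.integrable.const_mul t)]
    exact integral_mono ((integrable_logSum β m 0).add (hint.integrable.const_mul t))
      (integrable_logSum β m t) hpt
  have hnp : (0 : ℝ) < n := Nat.cast_pos.2 (Nat.pos_of_ne_zero hn)
  have hs : slope0 n β m =
      (1 / (n : ℝ)) * ∫ g, ∑ s : Fin n → Bool, gibbs β g s * X g s ∂gauss (Edge n) := by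
    unfold slope0 mean
    rw [← integral_const_mul, ← integral_const_mul]
    refine integral_congr_ae (.of_forall fun g => ?_)
    simp only [Finset.mul_sum, hX]
    exact Finset.sum_congr rfl fun s _ => by field_simp
  rw [hs]
  unfold tiltP mean
  have := mul_le_mul_of_nonneg_left key (show (0 : ℝ) ≤ 1 / n by positivity)
  linarith

end Vale.Agent.P146.Div
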