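import Vale.Agent.P146.Div.Statements
import Vale.Agent.P146.Div.Pressure

/-!
The variance of the free energy diverges above the critical inverse temperature, from the
marginality of minimisers, the lower bound of the variational formula, the tilted upper bound and
the variance bound.
-/

noncomputable section

open MeasureTheory ProbabilityTheory Filter
open scoped BigOperators Topology

namespace Vale.Agent.P146.Div

open Vale.Agent.P157.Parisi (Path IsPath)

/-- The path of length zero at the origin. -/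
def zeroPath : Path where
  r := 0
  m := Fin.elim0
  q := fun _ => 0
  isPath := ⟨fun i => i.elim0, fun i => i.elim0, fun i => i.elim0, monotone_const, le_rfl,
    zero_le_one⟩

theorem hat_last (ξ : Path) : hat ξ (Fin.last ξ.r) = 1 - ξ.q (Fin.last ξ.r) := by
  rw [hat, Finset.sum_eq_zero fun i _ => if_neg (by rw [Fin.val_last]; exact not_le.2 i.isLt),
    add_zero]

theorem hat_castSucc (ξ : Path) (p : Fin ξ.r) :
    hat ξ p.castSucc = hat ξ p.succ + ξ.m p * (ξ.q p.succ - ξ.q p.castSucc) := by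
  have h : ∀ i : Fin ξ.r,
      (if p.castSucc.val ≤ i.val then ξ.m i * (ξ.q i.succ - ξ.q i.castSucc) else 0) =
        (if p.succ.val ≤ i.val then ξ.m i * (ξ.q i.succ - ξ.q i.castSucc) else 0) +
          if i = p then ξ.m i * (ξ.q i.succ - ξ.q i.castSucc) else 0 := by
    intro i
    simp only [Fin.val_succ, Fin.val_castSucc, Fin.ext_iff]
    split_ifs <;> first | omega | simp
  simp only [hat, h, Finset.sum_add_distrib, Finset.sum_ite_eq', Finset.mem_univ, if_true]
  ring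

theorem hat_nonneg (ξ : Path) (p : Fin (ξ.r + 1)) : 0 ≤ hat ξ p := by
  have h := ξ.isPath
  induction p using Fin.reverseInduction with
  | last => rw [hat_last]; linarith [h.le_one]
  | cast p ih =>
    rw [hat_castSucc]
    have : 0 ≤ ξ.m p * (ξ.q p.succ - ξ.q p.castSucc) :=
      mul_nonneg (h.pos p).le (sub_nonneg.2 (h.mono Fin.castSucc_lt_succ.le))
    linarith

/-- The diagonal of a power of the kernel dominates the power of its first eigenvalue. -/
theorem hat_pow_le_powDiag (ξ : Path) (k : ℕ) : hat ξ 0 ^ k ≤ powDiag ξ k := by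
  have h := ξ.isPath
  set F : Fin (ξ.r + 1) → ℝ := fun p => hat ξ p ^ k with hF
  have hstep : ∀ p : Fin ξ.r, F p.succ ≤ F p.castSucc := fun p => by
    refine pow_le_pow_left₀ (hat_nonneg ξ _) ?_ k
    rw [hat_castSucc]
    have : 0 ≤ ξ.m p * (ξ.q p.succ - ξ.q p.castSucc) :=
      mul_nonneg (h.pos p).le (sub_nonneg.2 (h.mono Fin.castSucc_lt_succ.le))
    linarith
  have hle : ∑ p : Fin ξ.r, (F p.castSucc - F p.succ) ≤ kOff ξ.m F (Fin.last ξ.r) := by
    refine Finset.sum_le_sum fun p _ => ?_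
    rw [Fin.val_last, if_pos p.isLt, le_div_iff₀ (h.pos p)]
    exact mul_le_of_le_one_right (sub_nonneg.2 (hstep p)) (h.lt_one p).le
  have htel : ∑ p : Fin ξ.r, (F p.castSucc - F p.succ) = F 0 - F (Fin.last ξ.r) := by
    have e1 := Fin.sum_univ_castSucc F
    have e2 := Fin.sum_univ_succ F
    rw [Finset.sum_sub_distrib]
    linarith
  show F 0 ≤ kDiag ξ.m F
  unfold kDiag
  linarith

/-- A marginal path gives slopes of at least one half at every order. -/
theorem one_le_powDiag {β : ℝ} {ξ : Path} (hβ : 0 ≤ β) (h : 1 ≤ β * hat ξ 0) (k : ℕ) :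
    1 ≤ β ^ k * powDiag ξ k := by
  calc (1 : ℝ) ≤ (β * hat ξ 0) ^ k := one_le_pow₀ h
    _ = β ^ k * hat ξ 0 ^ k := mul_pow _ _ _
    _ ≤ _ := mul_le_mul_of_nonneg_left (hat_pow_le_powDiag ξ k) (by positivity)

theorem tiltP_zero_indep (n : ℕ) (β : ℝ) (m : ℕ) : tiltP n β m 0 = tiltP n β 0 0 := by
  simp [tiltP, tiltE]

/-- Some fixed tilt lowers the pressure at a rate close to one half or above. -/
theorem gap_ge (hM : MinStmt) (hL : LowerStmt) (hU : UpperStmt) {β : ℝ} (hβ : 1 < β)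
    (m : ℕ) (hm : 1 ≤ m) {e : ℝ} (he : 0 < e) :
    ∃ t > 0, ∀ᶠ n : ℕ in atTop, t * (1 / 2 - e) ≤ tiltP n β m 0 - tiltP n β m (-t) := by
  have hβ0 : 0 < β := by linarith
  obtain ⟨t₀, ht₀, hU'⟩ := hU β hβ0 m hm (e / 2) (by positivity)
  set ε : ℝ := e * t₀ / 8 with hε
  have hε0 : 0 < ε := by positivity
  set S : Set ℝ := {x | ∃ ξ : Path, ξ.q 0 = 0 ∧ x = skVal β ξ} with hS
  have hne : S.Nonempty := ⟨_, zeroPath, rfl, rfl⟩
  have hbdd : BddBelow S := by
    refine ⟨-1, ?_⟩
    rintro x ⟨ξ, hξ, rfl⟩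
    obtain ⟨n, hn⟩ := ((hU' ξ hξ 0 (by simpa using ht₀.le) 1 one_pos)).exists
    have := tiltP_nonneg (n := n) β m
    simp only [zero_div, zero_mul, abs_zero, mul_zero, add_zero] at hn
    linarith
  obtain ⟨x, ⟨ξ₁, hξ₁, rfl⟩, hx⟩ := exists_lt_of_csInf_lt hne
    (show sInf S < sInf S + ε by linarith)
  obtain ⟨ξ, hξ0, hξle, hχ⟩ := hM β hβ ξ₁ hξ₁
  have habs : |(-t₀)| ≤ t₀ := by rw [abs_neg, abs_of_pos ht₀]
  refine ⟨t₀, ht₀, ?_⟩
  filter_upwards [hU' ξ hξ0 (-t₀) habs ε hε0, hL β hβ0 ε hε0] with n hup ⟨ξ', hξ', hlow⟩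
  have hinf : sInf S ≤ skVal β ξ' := csInf_le hbdd ⟨ξ', hξ', rfl⟩
  rw [tiltP_zero_indep n β m]
  have hγ : t₀ ≤ t₀ * (β ^ (m + 1) * powDiag ξ (m + 1)) :=
    le_mul_of_one_le_right ht₀.le (one_le_powDiag hβ0.le hχ (m + 1))
  rw [abs_neg, abs_of_pos ht₀] at hup
  have : 3 * ε ≤ t₀ * (e / 2) := by rw [hε]; nlinarith
  nlinarith

/-- All slopes are eventually close to one half or above. -/
theorem slopes_ge (hM : MinStmt) (hL : LowerStmt) (hU : UpperStmt) {β : ℝ} (hβ : 1 < β)
    (m : ℕ) (hm : 1 ≤ m) {e : ℝ} (he : 0 < e) :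
    ∀ᶠ n : ℕ in atTop, 1 / 2 - e ≤ slope0 n β m := by
  obtain ⟨t, ht, h⟩ := gap_ge hM hL hU hβ m hm he
  filter_upwards [h, eventually_ne_atTop 0] with n hg hn
  have htan := tiltP_tangent hn β m (-t)
  have key : t * (1 / 2 - e) ≤ t * slope0 n β m := by linarith
  exact le_of_mul_le_mul_left key ht

/-- The variance diverges at every fixed inverse temperature above one. -/
theorem divergence_of (hM : MinStmt) (hL : LowerStmt) (hU : UpperStmt) (hV : VarStmt) :
    DivergenceStmt := by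
  intro β hβ M
  set e : ℝ := 1 / 16 with he
  set c : ℝ := (1 / 2 - 2 * e) ^ 2 / (1 / 2 + e) with hc
  have hc0 : 0 < c := by rw [hc, he]; norm_num
  -- enough orders
  obtain ⟨J, hJ⟩ := Filter.eventually_atTop.1
    (Real.tendsto_sum_range_one_div_nat_succ_atTop.eventually_ge_atTop (M / c + 2))
  have hsum : M / c ≤ ∑ k ∈ Finset.Icc 3 (J + 2), 1 / (k : ℝ) := by
    have h1 := hJ (J + 2) (Nat.le_add_right _ _)
    have e1 : ∑ k ∈ Finset.Icc 3 (J + 2), 1 / (k : ℝ) =
        ∑ i ∈ Finset.range J, 1 / ((i : ℝ) + 3) := by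
      rw [← Finset.Ico_add_one_right_eq_Icc, Finset.sum_Ico_eq_sum_range,
        show J + 2 + 1 - 3 = J by omega]
      exact Finset.sum_congr rfl fun i _ => by push_cast; ring
    rw [add_comm J 2, Finset.sum_range_add] at h1
    rw [e1]
    have e2 : ∑ i ∈ Finset.range J, 1 / (((2 + i : ℕ) : ℝ) + 1) =
        ∑ i ∈ Finset.range J, 1 / ((i : ℝ) + 3) :=
      Finset.sum_congr rfl fun i _ => by push_cast; ring
    rw [e2] at h1
    have e3 : ∑ i ∈ Finset.range 2, 1 / ((i : ℝ) + 1) = 3 / 2 := by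
      norm_num [Finset.sum_range_succ]
    rw [e3] at h1
    linarith
  have hall : ∀ᶠ n : ℕ in atTop, ∀ k ∈ Finset.Icc 3 (J + 2), 1 / 2 - e ≤ slope0 n β (k - 1) := by
    rw [eventually_all_finset]
    intro k hk
    exact slopes_ge hM hL hU hβ (k - 1) (by have := (Finset.mem_Icc.1 hk).1; omega)
      (by rw [he]; norm_num)
  filter_upwards [hV β (by linarith) (J + 2) e (by rw [he]; norm_num) (by rw [he]; norm_num),
    hall] with n hn h
  calc M = c * (M / c) := by field_simp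
    _ ≤ c * ∑ k ∈ Finset.Icc 3 (J + 2), 1 / (k : ℝ) := mul_le_mul_of_nonneg_left hsum hc0.le
    _ ≤ _ := hn h

end Vale.Agent.P146.Div
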