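import Mathlib

/-!
# P146: the convexity certificate in one dimension

For an odd, bounded, nondecreasing `ψ` that is concave on the positive axis and
`w x = exp (-x ^ 2 / 2 + P x)` with `P' = ψ`, we prove
`0 ≤ ∫ (ψ''^2 + 2 ψ^2 - 2 ψ'^2 - 2 ψ'^3) w`.
With `ρ = ψ / x` the integrand is, on `x > 0`, an exact derivative `F'` plus a square plus
a pointwise nonnegative expression, and `F` vanishes at `0` and at infinity.
-/

namespace Vale.Agent.P146.Div.Cert

open Real MeasureTheory Filter Topology Set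

/-- The pointwise part of the certificate (`r = ρ`, `t = -x ρ'`, `y = x ^ 2`). -/
noncomputable def point (r t y : ℝ) : ℝ :=
  (2 / 3) * t ^ 3 + t ^ 2 * (2 / y - 3 / 20 - (4 / 5) * r)
    + y * t ^ 2 * ((1 / 20 - (4 / 3) * r) * (19 / 20 + r / 3))
    - (16 / 5) * r ^ 2 * t + (8 / 5) * r ^ 2 * t * y * (19 / 20 + r / 3)
    + (34 / 25) * y * r ^ 4

/-- The discriminant of the certificate is nonnegative. -/
lemma disc_nonneg {a r : ℝ} (ha0 : 0 ≤ a) (ha1 : a ≤ 1) (hr : 0 ≤ r) :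
    ((3 / 20) * a + (4 / 5) * a * r + (16 / 5) * r - (2 / 3) * a ^ 2 * r) ^ 2
      ≤ 8 * (a ^ 2 * (1 / 20 - (4 / 3) * r) * (19 / 20 + r / 3)
          + (8 / 5) * a * r * (19 / 20 + r / 3) + (34 / 25) * r ^ 2) := by
  have h2 : (0:ℝ) ≤ 64 / 100 + (64 / 15) * a - (32 / 9) * a ^ 2
      - 2 * (16 / 5) * ((4 / 5) * a - (2 / 3) * a ^ 2)
      - ((4 / 5) * a - (2 / 3) * a ^ 2) ^ 2 := by
    nlinarith [sq_nonneg (a - 3/5), mul_nonneg ha0 (sub_nonneg.2 ha1), sq_nonneg a,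
      mul_nonneg (mul_nonneg ha0 ha0) (sub_nonneg.2 ha1)]
  have e1 : (0:ℝ) ≤ a * (304 / 25 - 10 * a)
      - 2 * ((3 / 20) * a) * (16 / 5 + (4 / 5) * a - (2 / 3) * a ^ 2) := by
    nlinarith [mul_nonneg ha0 (sub_nonneg.2 ha1), mul_nonneg (mul_nonneg ha0 ha0) ha0]
  nlinarith [mul_nonneg e1 hr, mul_nonneg h2 (sq_nonneg r), sq_nonneg a]

lemma amgm {A B C X : ℝ} (hX : 0 < X) (hA : 0 ≤ A) (hB : 0 ≤ B)
    (h : C ^ 2 ≤ 4 * (A * B)) : C ≤ A / X + B * X := by
  by_contra hc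
  push Not at hc
  have h0 : 0 ≤ A / X + B * X := by positivity
  have h1 : (A / X + B * X) ^ 2 < C ^ 2 := by nlinarith
  have h2 : (A / X + B * X) ^ 2 = (A / X - B * X) ^ 2 + 4 * (A * B) := by
    field_simp
    ring
  nlinarith [sq_nonneg (A / X - B * X)]

lemma point_nonneg {r t y : ℝ} (hy : 0 < y) (ht : 0 ≤ t) (htr : t ≤ r) :
    0 ≤ point r t y := by
  rcases eq_or_lt_of_le (ht.trans htr) with h | h
  · have : t = 0 := le_antisymm (h ▸ htr) ht
    subst this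
    simp [point, ← h]
  · obtain ⟨a, rfl⟩ : ∃ a, t = a * r := ⟨t / r, by field_simp⟩
    have ha0 : 0 ≤ a := nonneg_of_mul_nonneg_left ht h
    have ha1 : a ≤ 1 := by nlinarith
    have hd := disc_nonneg ha0 ha1 h.le
    set Q := a ^ 2 * (1 / 20 - (4 / 3) * r) * (19 / 20 + r / 3)
          + (8 / 5) * a * r * (19 / 20 + r / 3) + (34 / 25) * r ^ 2 with hQ
    set M := (3 / 20) * a + (4 / 5) * a * r + (16 / 5) * r - (2 / 3) * a ^ 2 * r with hM
    have hQ0 : 0 ≤ Q := by nlinarith [sq_nonneg M]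
    have hA : (0:ℝ) ≤ 2 * a ^ 2 := by positivity
    have hk : (a * M) ^ 2 ≤ 4 * ((2 * a ^ 2) * Q) := by
      nlinarith [mul_le_mul_of_nonneg_left hd (sq_nonneg a)]
    have := amgm hy hA hQ0 hk
    have e : point r (a * r) y = r ^ 2 * (2 * a ^ 2 / y + Q * y - a * M) := by
      rw [hQ, hM, point]
      field_simp
      ring
    rw [e]
    exact mul_nonneg (sq_nonneg r) (by linarith)

/-- The boundary function. -/
noncomputable def bd (ψ ψ1 P : ℝ → ℝ) (x : ℝ) : ℝ :=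
  exp (-x ^ 2 / 2 + P x) *
    (2 * x * (((ψ1 x - ψ x / x) / x) ^ 2 - (ψ x / x) ^ 2 - (ψ x / x) ^ 3)
      - (8 / 5) * x ^ 2 * (ψ x / x) ^ 2 * ((ψ1 x - ψ x / x) / x)
      + x ^ 3 * (1 / 20 - (4 / 3) * (ψ x / x)) * ((ψ1 x - ψ x / x) / x) ^ 2)

/-- The integrand. -/
noncomputable def integrand (ψ ψ1 ψ2 P : ℝ → ℝ) (x : ℝ) : ℝ :=
  (ψ2 x ^ 2 + 2 * ψ x ^ 2 - 2 * ψ1 x ^ 2 - 2 * ψ1 x ^ 3) * exp (-x ^ 2 / 2 + P x)

section

variable {ψ ψ1 ψ2 P : ℝ → ℝ} (hP : ∀ x, HasDerivAt P (ψ x) x)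
  (h1 : ∀ x, HasDerivAt ψ (ψ1 x) x) (h2 : ∀ x, HasDerivAt ψ1 (ψ2 x) x)

include hP h1 h2 in
lemma hasDerivAt_bd {x : ℝ} (hx : 0 < x) (hn : 0 ≤ ψ1 x)
    (hc : x * ψ1 x ≤ ψ x) :
    ∃ d, HasDerivAt (bd ψ ψ1 P) d x ∧ d ≤ integrand ψ ψ1 ψ2 P x := by
  have hx' : x ≠ 0 := hx.ne'
  have hid := hasDerivAt_id' x
  have hw := ((((hid.pow 2).neg).div_const 2).add (hP x)).exp
  have hr := (h1 x).div hid hx'
  have hr' := ((h2 x).sub hr).div hid hx'
  have hd := hw.mul (((hid.const_mul 2).mul (((hr'.pow 2).sub (hr.pow 2)).sub (hr.pow 3))).sub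
    ((((hid.pow 2).const_mul (8 / 5)).mul (hr.pow 2)).mul hr') |>.add
    (((hid.pow 3).mul ((hr.const_mul (4 / 3)).const_sub (1 / 20))).mul (hr'.pow 2)))
  refine ⟨_, hd, ?_⟩
  have hpt := point_nonneg (r := ψ x / x) (t := ψ x / x - ψ1 x) (y := x ^ 2) (by positivity)
    (by rw [sub_nonneg, le_div_iff₀ hx]; linarith) (by linarith)
  have hsq := sq_nonneg (x * ((ψ2 x - 2 * ((ψ1 x - ψ x / x) / x)) / x + (4 / 5) * (ψ x / x) ^ 2
    - x * (1 / 20 - (4 / 3) * (ψ x / x)) * ((ψ1 x - ψ x / x) / x)))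
  have key := mul_nonneg (add_nonneg hsq hpt) (exp_pos (-x ^ 2 / 2 + P x)).le
  rw [integrand]
  refine le_of_sub_nonneg (le_of_le_of_eq key ?_)
  simp only [point, Pi.sub_apply, Pi.mul_apply, Pi.div_apply, Pi.pow_apply, Nat.cast_ofNat,
    Pi.neg_apply, Pi.add_apply, Nat.reduceSub, pow_one, mul_one]
  generalize Real.exp (-x ^ 2 / 2 + P x) = E
  field_simp
  ring

end

/-- Exponential decay of the weight against powers. -/
lemma weight_le {ψ P : ℝ → ℝ} {c : ℝ} (hP : ∀ x, HasDerivAt P (ψ x) x)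
    (hb : ∀ x, |ψ x| ≤ c) (x : ℝ) :
    exp (-x ^ 2 / 2 + P x) ≤ exp (P 0 + c ^ 2) * exp (-x ^ 2 / 4) := by
  rw [← exp_add]
  refine exp_le_exp.2 ?_
  have hl : |P x - P 0| ≤ c * |x| := by
    have := convex_univ.norm_image_sub_le_of_norm_hasDerivWithin_le
      (f := P) (f' := ψ) (C := c) (fun y _ => (hP y).hasDerivWithinAt)
      (fun y _ => by simpa using hb y) (mem_univ 0) (mem_univ x)
    simpa using this
  nlinarith [le_abs_self (P x - P 0), sq_nonneg (|x| / 2 - c), sq_abs x]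

lemma integrable_bdd_mul_weight {ψ P f : ℝ → ℝ} {c M : ℝ} (hP : ∀ x, HasDerivAt P (ψ x) x)
    (hb : ∀ x, |ψ x| ≤ c) (hf : AEStronglyMeasurable f) (hM : ∀ x, |f x| ≤ M) :
    Integrable fun x => f x * exp (-x ^ 2 / 2 + P x) := by
  have hg : Integrable fun x : ℝ => exp (-(1 / 4 : ℝ) * x ^ 2) :=
    integrable_exp_neg_mul_sq (by norm_num)
  have hPc : Continuous P := continuous_iff_continuousAt.2 fun x => (hP x).continuousAt
  refine (hg.const_mul (M * exp (P 0 + c ^ 2))).mono'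
    (hf.mul (by fun_prop : Continuous fun x => exp (-x ^ 2 / 2 + P x)).aestronglyMeasurable)
    (ae_of_all _ fun x => ?_)
  rw [norm_mul, norm_eq_abs, norm_eq_abs, abs_of_pos (exp_pos _), mul_assoc]
  refine mul_le_mul (hM x) ?_ (exp_pos _).le ((abs_nonneg _).trans (hM x))
  exact (weight_le hP hb x).trans_eq (by ring_nf)

/-- **Marginality certificate.** -/
theorem main {ψ ψ1 ψ2 P : ℝ → ℝ} (hP : ∀ x, HasDerivAt P (ψ x) x)
    (h1 : ∀ x, HasDerivAt ψ (ψ1 x) x) (h2 : ∀ x, HasDerivAt ψ1 (ψ2 x) x)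
    (hodd : ∀ x, ψ (-x) = -ψ x) (hmono : ∀ x, 0 ≤ ψ1 x)
    (hconc : ∀ x, 0 < x → ψ2 x ≤ 0)
    {c : ℝ} (b0 : ∀ x, |ψ x| ≤ c) (b1 : ∀ x, |ψ1 x| ≤ c) (b2 : ∀ x, |ψ2 x| ≤ c)
    (hPe : ∀ x, P (-x) = P x) :
    0 ≤ ∫ x, integrand ψ ψ1 ψ2 P x := by
  have hψ0 : ψ 0 = 0 := by have := hodd 0; simp at this; linarith
  have hψc : Continuous ψ := continuous_iff_continuousAt.2 fun x => (h1 x).continuousAt
  have hψ1c : Continuous ψ1 := continuous_iff_continuousAt.2 fun x => (h2 x).continuousAt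
  have hPc : Continuous P := continuous_iff_continuousAt.2 fun x => (hP x).continuousAt
  have hψ2m : Measurable ψ2 := by
    rw [show ψ2 = deriv ψ1 from funext fun x => (h2 x).deriv.symm]
    exact measurable_deriv ψ1
  have hc0 : 0 ≤ c := (abs_nonneg _).trans (b0 0)
  -- integrability
  have hint : Integrable (integrand ψ ψ1 ψ2 P) := by
    refine integrable_bdd_mul_weight (M := 5 * c ^ 2 + 2 * c ^ 3) hP b0
      (by fun_prop) fun x => ?_
    have a0 := sq_le_sq' (abs_le.1 (b0 x)).1 (abs_le.1 (b0 x)).2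
    have a1 := sq_le_sq' (abs_le.1 (b1 x)).1 (abs_le.1 (b1 x)).2
    have a2 := sq_le_sq' (abs_le.1 (b2 x)).1 (abs_le.1 (b2 x)).2
    have a3 : ψ1 x ^ 3 ≤ c ^ 3 := pow_le_pow_left₀ (hmono x) (le_of_abs_le (b1 x)) 3
    have a4 : 0 ≤ ψ1 x ^ 3 := pow_nonneg (hmono x) 3
    rw [abs_le]
    constructor <;> nlinarith [sq_nonneg (ψ x), sq_nonneg (ψ1 x), sq_nonneg (ψ2 x)]
  -- the two derivative bounds near zero
  have l1 : ∀ x y, |ψ1 x - ψ1 y| ≤ c * |x - y| := fun x y => by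
    simpa using convex_univ.norm_image_sub_le_of_norm_hasDerivWithin_le
      (f := ψ1) (f' := ψ2) (C := c) (fun z _ => (h2 z).hasDerivWithinAt)
      (fun z _ => by simpa using b2 z) (mem_univ y) (mem_univ x)
  have hmvt : ∀ x, 0 < x → ∃ z, 0 < z ∧ z < x ∧ ψ x / x = ψ1 z := fun x hx => by
    obtain ⟨z, hz, e⟩ := exists_hasDerivAt_eq_slope ψ ψ1 hx hψc.continuousOn
      (fun y _ => h1 y)
    exact ⟨z, hz.1, hz.2, by rw [e, hψ0, sub_zero, sub_zero]⟩
  have hanti : ∀ y x, 0 < y → y ≤ x → ψ1 x ≤ ψ1 y := fun y x hy hyx => by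
    have := antitoneOn_of_hasDerivWithinAt_nonpos (convex_Ioi 0) hψ1c.continuousOn
      (fun z _ => (h2 z).hasDerivWithinAt) (fun z hz => hconc z (by simpa using hz))
    exact this hy (hy.trans_le hyx) hyx
  have hder : ∀ x, 0 < x → ∃ d, HasDerivAt (bd ψ ψ1 P) d x ∧
      d ≤ integrand ψ ψ1 ψ2 P x := fun x hx => by
    obtain ⟨z, hz0, hzx, e⟩ := hmvt x hx
    refine hasDerivAt_bd hP h1 h2 hx (hmono x) ?_
    have := hanti z x hz0 hzx.le
    rw [← e, le_div_iff₀ hx] at this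
    linarith
  -- size of the boundary term
  have hbd : ∀ x, 0 < x → |bd ψ ψ1 P x| ≤ (exp (P 0 + c ^ 2) * exp (-x ^ 2 / 4)) *
      (2 * x * (c ^ 2 + c ^ 2 + c ^ 3) + (8 / 5) * x ^ 2 * c ^ 2 * c
        + x ^ 3 * (1 + (4 / 3) * c) * c ^ 2) := fun x hx => by
    obtain ⟨z, hz0, hzx, e⟩ := hmvt x hx
    have r0 : |ψ x / x| ≤ c := e ▸ b1 z
    have r1 : |(ψ1 x - ψ x / x) / x| ≤ c := by
      rw [e, abs_div, abs_of_pos hx, div_le_iff₀ hx]
      exact (l1 x z).trans (mul_le_mul_of_nonneg_left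
        (by rw [abs_of_pos (sub_pos.2 hzx)]; linarith) hc0)
    rw [bd, abs_mul, abs_of_pos (exp_pos _)]
    generalize ψ x / x = r at r0 r1 ⊢
    generalize (ψ1 x - r) / x = s at r1 ⊢
    refine mul_le_mul (weight_le hP b0 x) ?_ (abs_nonneg _) (by positivity)
    have q0 : r ^ 2 ≤ c ^ 2 := sq_le_sq' (abs_le.1 r0).1 (abs_le.1 r0).2
    have q1 : s ^ 2 ≤ c ^ 2 := sq_le_sq' (abs_le.1 r1).1 (abs_le.1 r1).2
    have u1 : |s ^ 2 - r ^ 2 - r ^ 3| ≤ c ^ 2 + c ^ 2 + c ^ 3 := by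
      refine (abs_sub _ _).trans (add_le_add ((abs_sub _ _).trans (add_le_add ?_ ?_)) ?_)
      · rw [abs_pow, sq_abs]; exact q1
      · rw [abs_pow, sq_abs]; exact q0
      · rw [abs_pow]; exact pow_le_pow_left₀ (abs_nonneg _) r0 3
    have u2 : |r ^ 2 * s| ≤ c ^ 2 * c := by
      rw [abs_mul, abs_pow, sq_abs]
      exact mul_le_mul q0 r1 (abs_nonneg _) (sq_nonneg _)
    have u3 : |(1 / 20 - (4 / 3) * r) * s ^ 2| ≤ (1 + (4 / 3) * c) * c ^ 2 := by
      rw [abs_mul, abs_pow, sq_abs]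
      refine mul_le_mul (abs_le.2 ?_) q1 (sq_nonneg _) (by positivity)
      constructor <;> linarith [(abs_le.1 r0).1, (abs_le.1 r0).2]
    calc _ ≤ |2 * x * (s ^ 2 - r ^ 2 - r ^ 3)| + |(8 / 5) * x ^ 2 * (r ^ 2 * s)|
          + |x ^ 3 * ((1 / 20 - (4 / 3) * r) * s ^ 2)| := by
            simp only [mul_assoc]
            exact (abs_add_le _ _).trans (add_le_add (abs_sub _ _) le_rfl)
      _ ≤ _ := by
            simp only [abs_mul (2 * x), abs_mul ((8 / 5) * x ^ 2), abs_mul (x ^ 3),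
              abs_of_pos (mul_pos two_pos hx), abs_of_pos (by positivity : 0 < (8 / 5) * x ^ 2),
              abs_of_pos (pow_pos hx 3), mul_assoc ((8 / 5) * x ^ 2) (c ^ 2) c,
              mul_assoc (x ^ 3) (1 + (4 / 3) * c) (c ^ 2)]
            gcongr
  have hneg : ∀ x, integrand ψ ψ1 ψ2 P (-x) = integrand ψ ψ1 ψ2 P x := fun x => by
    have e1 : ψ1 (-x) = ψ1 x := by
      have a := ((h1 (-x)).comp x (hasDerivAt_neg x))
      have b : HasDerivAt (fun y => ψ (-y)) (-ψ1 x) x := by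
        exact HasDerivAt.congr_of_eventuallyEq (h1 x).neg (Eventually.of_forall fun y => hodd y)
      have := a.unique b
      linarith
    have e2 : ψ2 (-x) = -ψ2 x := by
      have a := ((h2 (-x)).comp x (hasDerivAt_neg x))
      have b : HasDerivAt (fun y => ψ1 (-y)) (ψ2 x) x := by
        have : (fun y => ψ1 (-y)) = ψ1 := by
          funext y
          have a := ((h1 (-y)).comp y (hasDerivAt_neg y))
          have b : HasDerivAt (fun y => ψ (-y)) (-ψ1 y) y := by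
            exact HasDerivAt.congr_of_eventuallyEq (h1 y).neg (Eventually.of_forall fun z => hodd z)
          have := a.unique b
          linarith
        rw [this]
        exact h2 x
      have := a.unique b
      linarith
    simp only [integrand, hodd, e1, e2, hPe, neg_sq]
  -- half line
  have hhalf : 0 ≤ ∫ x in Ioi (0:ℝ), integrand ψ ψ1 ψ2 P x := by
    obtain ⟨a, ha⟩ : ∃ a : ℕ → ℝ, ∀ n, a n = (n + 1 : ℝ) := ⟨_, fun n => rfl⟩
    have ha1 : ∀ n, 1 ≤ a n := fun n => by rw [ha]; simp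
    have ha' : Tendsto a atTop atTop := by
      rw [funext ha]
      exact tendsto_natCast_atTop_atTop.atTop_add tendsto_const_nhds
    have hle : ∀ n, bd ψ ψ1 P (a n) - bd ψ ψ1 P (a n)⁻¹
        ≤ ∫ x in Ioc (a n)⁻¹ (a n), integrand ψ ψ1 ψ2 P x := fun n => by
      have hi : 0 < (a n)⁻¹ := inv_pos.2 (zero_lt_one.trans_le (ha1 n))
      have hab : (a n)⁻¹ ≤ a n := (inv_le_one_of_one_le₀ (ha1 n)).trans (ha1 n)
      rw [← intervalIntegral.integral_of_le hab]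
      refine intervalIntegral.sub_le_integral_of_hasDeriv_right_of_le hab
        (g' := deriv (bd ψ ψ1 P)) ?_ ?_ hint.integrableOn ?_
      · intro y hy
        obtain ⟨d, hd, _⟩ := hder y (hi.trans_le hy.1)
        exact hd.continuousAt.continuousWithinAt
      · intro y hy
        obtain ⟨d, hd, _⟩ := hder y (hi.trans hy.1)
        rw [hd.deriv]
        exact hd.hasDerivWithinAt
      · intro y hy
        obtain ⟨d, hd, hle⟩ := hder y (hi.trans hy.1)
        rw [hd.deriv]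
        exact hle
    have hlim : Tendsto (fun n => ∫ x in Ioc (a n)⁻¹ (a n), integrand ψ ψ1 ψ2 P x) atTop
        (𝓝 (∫ x in Ioi (0:ℝ), integrand ψ ψ1 ψ2 P x)) := by
      have hu : (⋃ n, Ioc (a n)⁻¹ (a n)) = Ioi 0 := by
        refine subset_antisymm (iUnion_subset fun n y hy =>
          (inv_pos.2 (zero_lt_one.trans_le (ha1 n))).trans hy.1) fun y (hy : 0 < y) => ?_
        obtain ⟨n, hn, hn'⟩ := ((ha'.eventually_ge_atTop y).and
          (ha'.eventually_gt_atTop y⁻¹)).exists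
        exact mem_iUnion.2 ⟨n, inv_lt_of_inv_lt₀ hy hn', hn⟩
      rw [← hu]
      refine tendsto_setIntegral_of_monotone (fun n => measurableSet_Ioc) (fun m n hmn => ?_)
        hint.integrableOn
      have : a m ≤ a n := by rw [ha, ha]; gcongr
      exact Ioc_subset_Ioc (inv_anti₀ (zero_lt_one.trans_le (ha1 m)) this) this
    have hz : Tendsto (bd ψ ψ1 P) (𝓝[>] (0:ℝ)) (𝓝 0) := by
      refine squeeze_zero_norm' (eventually_nhdsWithin_of_forall fun x hx => hbd x hx)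
        (tendsto_nhdsWithin_of_tendsto_nhds ?_)
      exact Continuous.tendsto' (by fun_prop) 0 0 (by simp)
    have htop : Tendsto (bd ψ ψ1 P) atTop (𝓝 0) := by
      refine squeeze_zero_norm' ((eventually_gt_atTop 0).mono fun x hx => hbd x hx) ?_
      have k : ∀ k : ℕ, Tendsto (fun x : ℝ => x ^ k * exp (-x ^ 2 / 4)) atTop (𝓝 0) := fun k => by
        refine squeeze_zero_norm' ((eventually_ge_atTop 4).mono fun x hx => ?_)
          (Real.tendsto_pow_mul_exp_neg_atTop_nhds_zero k)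
        rw [norm_eq_abs, abs_mul, abs_of_pos (exp_pos _),
          abs_of_nonneg (pow_nonneg (by linarith) k)]
        gcongr
        nlinarith
      convert (((k 1).const_mul (exp (P 0 + c ^ 2) * (2 * (c ^ 2 + c ^ 2 + c ^ 3)))).add
        ((k 2).const_mul (exp (P 0 + c ^ 2) * ((8 / 5) * (c ^ 2 * c))))).add
        ((k 3).const_mul (exp (P 0 + c ^ 2) * ((1 + (4 / 3) * c) * c ^ 2))) using 1
      · funext x; ring
      · simp
    have h' : Tendsto (fun n => bd ψ ψ1 P (a n) - bd ψ ψ1 P (a n)⁻¹) atTop (𝓝 0) := by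
      simpa using (htop.comp ha').sub (hz.comp (tendsto_inv_atTop_nhdsGT_zero.comp ha'))
    exact le_of_tendsto_of_tendsto' h' hlim hle
  have hsplit : ∫ x, integrand ψ ψ1 ψ2 P x =
      2 * ∫ x in Ioi (0:ℝ), integrand ψ ψ1 ψ2 P x := by
    rw [← intervalIntegral.integral_Iic_add_Ioi hint.integrableOn hint.integrableOn]
    have : ∫ x in Iic (0:ℝ), integrand ψ ψ1 ψ2 P x
        = ∫ x in Ioi (0:ℝ), integrand ψ ψ1 ψ2 P x := by
      have := integral_comp_neg_Ioi (0:ℝ) (integrand ψ ψ1 ψ2 P)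
      simp only [hneg, neg_zero] at this
      exact this.symm
    rw [this]
    ring
  rw [hsplit]
  positivity

/-- The certificate for a scaled Gaussian with weight `exp ∘ F`, where `F' = f`. -/
theorem gauss {f f1 f2 F : ℝ → ℝ} (hF : ∀ x, HasDerivAt F (f x) x)
    (h1 : ∀ x, HasDerivAt f (f1 x) x) (h2 : ∀ x, HasDerivAt f1 (f2 x) x)
    (hFe : ∀ x, F (-x) = F x) (hodd : ∀ x, f (-x) = -f x) (hmono : ∀ x, 0 ≤ f1 x)
    (hconc : ∀ x, 0 < x → f2 x ≤ 0)
    {c : ℝ} (b0 : ∀ x, |f x| ≤ c) (b1 : ∀ x, |f1 x| ≤ c) (b2 : ∀ x, |f2 x| ≤ c)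
    {σ : ℝ} (hσ : 0 < σ) :
    0 ≤ ∫ z, (σ ^ 4 * (f2 (σ * z) ^ 2 - 2 * f1 (σ * z) ^ 3) - 2 * σ ^ 2 * f1 (σ * z) ^ 2
      + 2 * f (σ * z) ^ 2) * exp (F (σ * z)) ∂ProbabilityTheory.gaussianReal 0 1 := by
  have hs : ∀ y : ℝ, HasDerivAt (fun y => σ * y) σ y := fun y => by
    simpa using (hasDerivAt_id y).const_mul σ
  have key := main (ψ := fun y => σ * f (σ * y))
    (ψ1 := fun y => σ ^ 2 * f1 (σ * y)) (ψ2 := fun y => σ ^ 3 * f2 (σ * y))
    (P := fun y => F (σ * y))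
    (fun y => by
      refine HasDerivAt.congr_deriv ((hF (σ * y)).comp y (hs y)) ?_
      ring)
    (fun y => by
      refine HasDerivAt.congr_deriv (((h1 (σ * y)).comp y (hs y)).const_mul σ) ?_
      ring)
    (fun y => by
      refine HasDerivAt.congr_deriv (((h2 (σ * y)).comp y (hs y)).const_mul (σ ^ 2)) ?_
      ring)
    (fun y => by simp [hodd]) (fun y => by have := hmono (σ * y); positivity)
    (fun y hy => mul_nonpos_of_nonneg_of_nonpos (by positivity) (hconc _ (by positivity)))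
    (c := (σ + σ ^ 2 + σ ^ 3) * c)
    (fun y => by
      rw [abs_mul, abs_of_pos hσ]
      exact mul_le_mul (by nlinarith [pow_pos hσ 2, pow_pos hσ 3])
        (b0 _) (abs_nonneg _) (by positivity))
    (fun y => by
      rw [abs_mul, abs_of_pos (pow_pos hσ 2)]
      exact mul_le_mul (by nlinarith [pow_pos hσ 3]) (b1 _) (abs_nonneg _) (by positivity))
    (fun y => by
      rw [abs_mul, abs_of_pos (pow_pos hσ 3)]
      exact mul_le_mul (by nlinarith [pow_pos hσ 2]) (b2 _) (abs_nonneg _) (by positivity))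
    (fun y => by simp [hFe])
  have hK : (0:ℝ) < (√(2 * π))⁻¹ / σ ^ 2 := by positivity
  have := mul_nonneg hK.le key
  rw [← integral_const_mul] at this
  rw [ProbabilityTheory.integral_gaussianReal_eq_integral_smul one_ne_zero]
  refine this.trans_eq (integral_congr_ae (ae_of_all _ fun z => ?_))
  simp only [integrand, ProbabilityTheory.gaussianPDFReal, smul_eq_mul, NNReal.coe_one, mul_one,
    sub_zero]
  rw [show exp (-z ^ 2 / 2 + F (σ * z)) = exp (-z ^ 2 / 2) * exp (F (σ * z)) from exp_add _ _]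
  field_simp
  ring

/-- Convexity of `G u / u` bounds `G` by the chord of `G u / u`. -/
theorem chord {G G1 G2 : ℝ → ℝ} {v : ℝ} (hv : 0 < v) (h0 : G 0 = 0)
    (hG : ContinuousOn G (Icc 0 v)) (hd0 : HasDerivWithinAt G (G1 0) (Ioi 0) 0)
    (hd1 : ∀ u ∈ Ioo 0 v, HasDerivAt G (G1 u) u)
    (hd2 : ∀ u ∈ Ioo 0 v, HasDerivAt G1 (G2 u) u)
    (hK : ∀ u ∈ Ioo 0 v, 0 ≤ u ^ 2 * G2 u - 2 * u * G1 u + 2 * G u)
    {u : ℝ} (hu : u ∈ Ioo 0 v) :
    G u / u ≤ (v - u) / v * G1 0 + u / v * (G v / v) := by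
  have hKd : ∀ u ∈ Ioo 0 v, HasDerivAt (fun u => G u / u) ((u * G1 u - G u) / u ^ 2) u :=
    fun u hu => by
      refine ((hd1 u hu).div (hasDerivAt_id' u) hu.1.ne').congr_deriv ?_
      ring
  have hKd2 : ∀ u ∈ Ioo 0 v, HasDerivAt (fun u => (u * G1 u - G u) / u ^ 2)
      ((u ^ 2 * G2 u - 2 * u * G1 u + 2 * G u) / u ^ 3) u := fun u hu => by
    have := ((((hasDerivAt_id' u).mul (hd2 u hu)).sub (hd1 u hu)).div
      ((hasDerivAt_id' u).pow 2) (pow_ne_zero 2 hu.1.ne'))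
    refine this.congr_deriv ?_
    have := hu.1.ne'
    simp only [Pi.sub_apply, Pi.mul_apply, Pi.pow_apply, Nat.cast_ofNat, Nat.reduceSub, pow_one]
    field_simp
    ring
  have hconv : ConvexOn ℝ (Ioc 0 v) (fun u => G u / u) := by
    refine convexOn_of_hasDerivWithinAt2_nonneg (convex_Ioc 0 v)
      ((hG.mono Ioc_subset_Icc_self).div continuousOn_id fun u hu => hu.1.ne')
      (f' := fun u => (u * G1 u - G u) / u ^ 2)
      (f'' := fun u => (u ^ 2 * G2 u - 2 * u * G1 u + 2 * G u) / u ^ 3) ?_ ?_ ?_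
    all_goals intro u hu; rw [interior_Ioc] at hu
    · exact (hKd u hu).hasDerivWithinAt
    · exact (hKd2 u hu).hasDerivWithinAt
    · exact div_nonneg (hK u hu) (pow_nonneg hu.1.le 3)
  have hK0 : Tendsto (fun u => G u / u) (𝓝[>] (0:ℝ)) (𝓝 (G1 0)) := by
    have := hasDerivWithinAt_iff_tendsto_slope' self_notMem_Ioi |>.1 hd0
    refine this.congr fun u => ?_
    simp [slope, h0, div_eq_inv_mul]
  have hlim : Tendsto (fun a => (v - u) / (v - a) * (G a / a) + (u - a) / (v - a) * (G v / v))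
      (𝓝[>] (0:ℝ)) (𝓝 ((v - u) / v * G1 0 + u / v * (G v / v))) := by
    have hid : Tendsto (fun a : ℝ => a) (𝓝[>] (0:ℝ)) (𝓝 0) :=
      tendsto_nhdsWithin_of_tendsto_nhds tendsto_id
    have hden : Tendsto (fun a => v - a) (𝓝[>] (0:ℝ)) (𝓝 v) := by
      simpa using hid.const_sub v
    have hnum : Tendsto (fun a => u - a) (𝓝[>] (0:ℝ)) (𝓝 u) := by
      simpa using hid.const_sub u
    exact ((tendsto_const_nhds.div hden hv.ne').mul hK0).add
      ((hnum.div hden hv.ne').mul tendsto_const_nhds)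
  refine ge_of_tendsto hlim ?_
  filter_upwards [Ioo_mem_nhdsGT hu.1] with a ha
  have hav : 0 < v - a := by linarith [ha.2, hu.2]
  have hA : 0 ≤ (v - u) / (v - a) := div_nonneg (by linarith [hu.2]) hav.le
  have hB : 0 ≤ (u - a) / (v - a) := div_nonneg (by linarith [ha.2]) hav.le
  have hAB : (v - u) / (v - a) + (u - a) / (v - a) = 1 := by field_simp; ring
  have hma : a ∈ Ioc 0 v := ⟨ha.1, by linarith [ha.2, hu.2]⟩
  have hmv : v ∈ Ioc 0 v := ⟨hv, le_rfl⟩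
  have := hconv.2 hma hmv hA hB hAB
  simp only [smul_eq_mul] at this
  rwa [show (v - u) / (v - a) * a + (u - a) / (v - a) * v = u by field_simp; ring] at this

end Vale.Agent.P146.Div.Cert
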