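import Vale.Agent.P146.Model
import Vale.Agent.P157.Parisi.Upper.Nodes
import Vale.Agent.P157.Parisi.Defs

/-!
Definitions for the divergence of the variance of the free energy at low temperature.
-/

noncomputable section

open MeasureTheory ProbabilityTheory
open scoped BigOperators

namespace Vale.Agent.P146.Div

open Vale.Agent.P157 (dot gam)
open Vale.Agent.P157.Parisi (Path Cube sv siteValue weight)
open Vale.Agent.P157.Parisi.Up (Node leafVec)
open Vale.Agent.P168 (CascTree cascLaw Shape shapeProb)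
open Vale.Agent.P168.Cascade (Leaf leafW leafMeet)

/-! ### The tilted model -/

/-- The normalised bilinear form of the `m`-th Chebyshev matrix in two configurations. -/
def bform {n : ℕ} (m : ℕ) (g : Cfg n) (s s' : Fin n → Bool) : ℝ :=
  (∑ a, ∑ b, spin (s a) * uEnt m a b g * spin (s' b)) / n

/-- The energy tilted by the `m`-th Chebyshev matrix. -/
def tiltE {n : ℕ} (β : ℝ) (m : ℕ) (t : ℝ) (g : Cfg n) (s : Fin n → Bool) : ℝ :=
  β * energy g s + t * (β / 2) * ((n : ℝ) * bform m g s s)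

/-- The mean pressure of the tilted model. -/
def tiltP (n : ℕ) (β : ℝ) (m : ℕ) (t : ℝ) : ℝ :=
  (1 / (n : ℝ)) * mean fun g : Cfg n => Real.log (∑ s : Fin n → Bool, Real.exp (tiltE β m t g s))

/-- The slope of `tiltP` at zero tilt. -/
def slope0 (n : ℕ) (β : ℝ) (m : ℕ) : ℝ :=
  β / 2 * mean fun g : Cfg n => ∑ s : Fin n → Bool, gibbs β g s * bform m g s s

/-! ### The variational functional and the algebra of its paths -/

/-- The Parisi functional of the Sherrington-Kirkpatrick model at a discrete path. -/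
def skVal (β : ℝ) (ξ : Path) : ℝ :=
  Real.log 2 + siteValue ξ.m (fun p => β ^ 2 * ξ.q p) +
    β ^ 2 / 4 * (1 + ∑ p, weight ξ.m p * ξ.q p ^ 2)

/-- The eigenvalue of the overlap kernel at depth `p`. -/
def hat (ξ : Path) (p : Fin (ξ.r + 1)) : ℝ :=
  1 - ξ.q (Fin.last ξ.r) +
    ∑ i : Fin ξ.r, if p.val ≤ i.val then ξ.m i * (ξ.q i.succ - ξ.q i.castSucc) else 0

/-- The off-diagonal entry at depth `p` of the kernel with eigenvalues `F`. -/
def kOff {r : ℕ} (m : Fin r → ℝ) (F : Fin (r + 1) → ℝ) (p : Fin (r + 1)) : ℝ :=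
  ∑ i : Fin r, if i.val < p.val then (F i.castSucc - F i.succ) / m i else 0

/-- The diagonal entry of the kernel with eigenvalues `F`. -/
def kDiag {r : ℕ} (m : Fin r → ℝ) (F : Fin (r + 1) → ℝ) : ℝ :=
  kOff m F (Fin.last r) + F (Fin.last r)

/-- The entry of the kernel with eigenvalues `F` between two replicas of a tree. -/
def kern {r k : ℕ} (m : Fin r → ℝ) (F : Fin (r + 1) → ℝ) (v : Shape r k) (a b : Fin k) : ℝ :=
  if a = b then kDiag m F else kOff m F (v a b)

/-- The diagonal of the `k`-th power of the overlap kernel. -/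
def powDiag (ξ : Path) (k : ℕ) : ℝ := kDiag ξ.m fun p => hat ξ p ^ k

/-! ### Finite cascades with Gaussian fields at every site -/

/-- The node variables: one Gaussian vector for every site. -/
abbrev FieldVar (r n : ℕ) (nn : Fin r → ℕ) : Type := Fin n → Option (Node r nn) → ℝ

/-- Their law. -/
def fieldLaw (r n : ℕ) (nn : Fin r → ℕ) : Measure (FieldVar r n nn) :=
  Measure.pi fun _ => gam (Option (Node r nn))

/-- The field energy of a configuration at a leaf. -/
def fieldE {n : ℕ} (ξ : Path) (nn : Fin ξ.r → ℕ) (γ : FieldVar ξ.r n nn) (s : Fin n → Bool)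
    (l : Leaf ξ.r nn) : ℝ :=
  ∑ i, spin (s i) * dot (γ i) (leafVec nn ξ.q l)

/-- The weight of a configuration and a leaf, for log-weights `h` and field strength `c`. -/
def joint {n : ℕ} (ξ : Path) (nn : Fin ξ.r → ℕ) (h : (Fin n → Bool) → ℝ) (c : ℝ)
    (z : CascTree Unit ξ.r nn × FieldVar ξ.r n nn) (x : (Fin n → Bool) × Leaf ξ.r nn) : ℝ :=
  leafW ξ.r ξ.m nn z.1 x.2 * Real.exp (h x.1 + c * fieldE ξ nn z.2 x.1 x.2)

/-- The Gibbs probability of a configuration and a leaf. -/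
def jointGibbs {n : ℕ} (ξ : Path) (nn : Fin ξ.r → ℕ) (h : (Fin n → Bool) → ℝ) (c : ℝ)
    (z : CascTree Unit ξ.r nn × FieldVar ξ.r n nn) (x : (Fin n → Bool) × Leaf ξ.r nn) : ℝ :=
  joint ξ nn h c z x / ∑ y, joint ξ nn h c z y

/-- The law of a cascade and its fields. -/
def augLaw (ξ : Path) (n : ℕ) (nn : Fin ξ.r → ℕ) :
    Measure (CascTree Unit ξ.r nn × FieldVar ξ.r n nn) :=
  (cascLaw (Measure.dirac ()) ξ.r nn).prod (fieldLaw ξ.r n nn)

/-- The tree of `k` leaves. -/
def leafShape {r k : ℕ} (nn : Fin r → ℕ) (l : Fin k → Leaf r nn) : Shape r k :=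
  fun a b => Fin.ofNat (r + 1) (leafMeet r nn (l a) (l b))

/-- The mean of a function of the tree of `k` replicas. -/
def shapeMean {n k : ℕ} (ξ : Path) (nn : Fin ξ.r → ℕ) (h : (Fin n → Bool) → ℝ) (c : ℝ)
    (G : Shape ξ.r k → ℝ) : ℝ :=
  ∫ z, ∑ x : Fin k → (Fin n → Bool) × Leaf ξ.r nn,
    (∏ a, jointGibbs ξ nn h c z (x a)) * G (leafShape nn fun a => (x a).2) ∂augLaw ξ n nn

/-- The normalised log-partition function of fields alone. -/
def fieldLog {n : ℕ} (ξ : Path) (nn : Fin ξ.r → ℕ) (c : ℝ) : ℝ :=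
  ∫ z, Real.log ((∑ x, joint (n := n) ξ nn (fun _ => 0) c z x) /
    ∑ l, leafW ξ.r ξ.m nn z.1 l) ∂augLaw ξ n nn

/-! ### The interpolating state -/

/-- The log-weights of the interpolation between the fields and the tilted model. -/
def interpH {n : ℕ} (β : ℝ) (m : ℕ) (t θ : ℝ) (g : Cfg n) (s : Fin n → Bool) : ℝ :=
  β * Real.sin θ * energy g s + t * (β / 2) * ((n : ℝ) * bform m g s s)

/-- The mean over the disorder, the cascade, the fields and `k` replicas. -/
def stateMean {n k : ℕ} (ξ : Path) (nn : Fin ξ.r → ℕ) (β : ℝ) (m : ℕ) (t θ : ℝ)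
    (Φ : Cfg n → (Fin k → (Fin n → Bool) × Leaf ξ.r nn) → ℝ) : ℝ :=
  mean fun g : Cfg n => ∫ z, ∑ x : Fin k → (Fin n → Bool) × Leaf ξ.r nn,
    (∏ a, jointGibbs ξ nn (interpH β m t θ g) (β * Real.cos θ) z (x a)) * Φ g x ∂augLaw ξ n nn

/-- The mean squared gap between the overlap of two replicas and the path at their meet. -/
def gapSq (n : ℕ) (ξ : Path) (nn : Fin ξ.r → ℕ) (β : ℝ) (m : ℕ) (t θ : ℝ) : ℝ :=
  stateMean (n := n) (k := 2) ξ nn β m t θ fun g x =>
    (bform 0 g (x 0).1 (x 1).1 - ξ.q (leafShape nn (fun a => (x a).2) 0 1)) ^ 2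

/-! ### One-variable functions -/

/-- Even functions with four bounded derivatives, convex, with second derivative decreasing in
`|x|`. -/
structure Shape1 (F : ℝ → ℝ) : Prop where
  even : ∀ x, F (-x) = F x
  smooth : ContDiff ℝ 4 F
  bdd : ∀ j : ℕ, 1 ≤ j → j ≤ 4 → ∃ C, ∀ x, |iteratedDeriv j F x| ≤ C
  nonneg : ∀ x, 0 ≤ deriv (deriv F) x
  anti : AntitoneOn (deriv (deriv F)) (Set.Ici 0)

/-- The mean under the Gaussian law tilted by `exp (m F (√s ·))`. -/
def tMean (m s : ℝ) (F h : ℝ → ℝ) : ℝ :=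
  (∫ z, h z * Real.exp (m * F (Real.sqrt s * z)) ∂gaussianReal 0 1) /
    ∫ z, Real.exp (m * F (Real.sqrt s * z)) ∂gaussianReal 0 1

end Vale.Agent.P146.Div
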