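import Vale.Agent.P146.Div.Guerra.Brackets

/-!
The tilted Guerra bound.
-/

noncomputable section

open MeasureTheory ProbabilityTheory Filter Set
open scoped BigOperators Topology

namespace Vale.Agent.P146.Div

open Guerra
open Vale.Agent.P157.Parisi (Path siteValue)
open Vale.Agent.P168 (cascFilter)
open Vale.Agent.P168.Cascade (eventually_pos)

namespace Guerra

variable {β : ℝ} {m : ℕ} {t : ℝ}

/-- An antiderivative of `angleU`. -/
def angleV (β : ℝ) (m : ℕ) (t A η e : ℝ) (ξ : Path) (θ : ℝ) : ℝ :=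
  β ^ 2 / 4 * (1 - 2 * ξ.q (Fin.last ξ.r) + qq ξ) * Real.sin θ ^ 2 +
    t * (β ^ 2 / 2) * (β ^ (m - 1) * powDiag ξ (m + 1)) * Real.sin θ ^ m +
    β ^ 2 / 2 * (A * t ^ 2 * Real.sin θ + 4 * |t| * η * Real.log (η + Real.sin θ)) + e * θ

lemma sin_nonneg_Icc {θ : ℝ} (hθ : θ ∈ Icc (0 : ℝ) (Real.pi / 2)) : 0 ≤ Real.sin θ :=
  Real.sin_nonneg_of_nonneg_of_le_pi hθ.1 (hθ.2.trans (by linarith [Real.pi_pos]))

lemma continuousOn_angleU {A η e : ℝ} (hη : 0 < η) (ξ : Path) :
    ContinuousOn (angleU β m t A η e ξ) (Icc (0 : ℝ) (Real.pi / 2)) := by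
  have hne : ∀ θ ∈ Icc (0 : ℝ) (Real.pi / 2), η + Real.sin θ ≠ 0 := fun θ hθ => by
    linarith [sin_nonneg_Icc hθ]
  unfold angleU
  refine ContinuousOn.add (ContinuousOn.add (Continuous.continuousOn (by fun_prop))
    (ContinuousOn.mul (Continuous.continuousOn (by fun_prop))
      (ContinuousOn.add continuousOn_const ?_))) continuousOn_const
  exact ContinuousOn.div continuousOn_const (Continuous.continuousOn (by fun_prop)) hne

lemma hasDerivAt_angleV {A η e : ℝ} (hη : 0 < η) (ξ : Path) {θ : ℝ}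
    (hθ : θ ∈ Icc (0 : ℝ) (Real.pi / 2)) :
    HasDerivAt (angleV β m t A η e ξ) (angleU β m t A η e ξ θ) θ := by
  have hs := Real.hasDerivAt_sin θ
  have hne : η + Real.sin θ ≠ 0 := by linarith [sin_nonneg_Icc hθ]
  have h := ((((hs.fun_pow 2).const_mul (β ^ 2 / 4 * (1 - 2 * ξ.q (Fin.last ξ.r) + qq ξ))).fun_add
    ((hs.fun_pow m).const_mul (t * (β ^ 2 / 2) * (β ^ (m - 1) * powDiag ξ (m + 1))))).fun_add
    (((hs.const_mul (A * t ^ 2)).fun_add (((hs.const_add η).log hne).const_mul (4 * |t| * η))).const_mul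
      (β ^ 2 / 2))).fun_add ((hasDerivAt_id θ).const_mul e)
  refine h.congr_deriv ?_
  simp only [angleU, mul_pow]
  push_cast
  ring

lemma integral_angleU_le {A η e : ℝ} (hβ : 0 < β) (hm : 1 ≤ m) (hη : 0 < η) (ξ : Path) :
    ∫ θ in (0 : ℝ)..Real.pi / 2, angleU β m t A η e ξ θ ≤
      β ^ 2 / 4 * (1 - 2 * ξ.q (Fin.last ξ.r) + qq ξ) +
        t / 2 * (β ^ (m + 1) * powDiag ξ (m + 1)) +
          β ^ 2 / 2 * (A * t ^ 2 + 8 * |t| * Real.sqrt η) + e * (Real.pi / 2) := by
  have hpi : (0 : ℝ) ≤ Real.pi / 2 := by positivity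
  rw [intervalIntegral.integral_eq_sub_of_hasDerivAt
    (fun θ hθ => hasDerivAt_angleV hη ξ (uIcc_of_le hpi ▸ hθ))
    ((continuousOn_angleU hη ξ).intervalIntegrable_of_Icc hpi)]
  have h0 : (0 : ℝ) ^ m = 0 := zero_pow (by omega)
  simp only [angleV, Real.sin_pi_div_two, Real.sin_zero, h0, one_pow, mul_one, add_zero, mul_zero]
  have hsplit : β ^ (m + 1) = β ^ 2 * β ^ (m - 1) := by
    rw [← pow_add]; congr 1; omega
  have hlog : η * (Real.log (η + 1) - Real.log η) ≤ 2 * Real.sqrt η := by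
    have hs : 0 < Real.sqrt η := Real.sqrt_pos.2 hη
    have e1 : Real.log (η + 1) - Real.log η ≤ 2 * (1 / Real.sqrt η) := by
      rw [← Real.log_div (by linarith) hη.ne']
      set u := Real.sqrt ((η + 1) / η) with hu
      have hu0 : 0 < u := Real.sqrt_pos.2 (by positivity)
      have hu2 : u ^ 2 = (η + 1) / η := Real.sq_sqrt (by positivity)
      have hub : u ≤ 1 + 1 / Real.sqrt η := by
        refine (sq_le_sq₀ hu0.le (by positivity)).1 ?_
        rw [hu2, add_sq, one_pow, div_pow, one_pow, Real.sq_sqrt hη.le, add_div, div_self hη.ne']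
        have : 0 ≤ 2 * 1 * (1 / Real.sqrt η) := by positivity
        linarith
      rw [← hu2, Real.log_pow]
      push_cast
      linarith [Real.log_le_sub_one_of_pos hu0]
    refine (mul_le_mul_of_nonneg_left e1 hη.le).trans (le_of_eq ?_)
    field_simp
    rw [Real.sq_sqrt hη.le]
  rw [hsplit]
  have hb : 0 ≤ β ^ 2 / 2 * (4 * |t|) := by positivity
  have := mul_le_mul_of_nonneg_left hlog hb
  simp only [pow_two, zero_mul, mul_zero, add_zero, zero_add, sub_zero] at *
  linarith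

lemma abs_dphi_le (β : ℝ) (m : ℕ) (t : ℝ) (ξ : Path) (n : ℕ) (hn : n ≠ 0) :
    ∃ K, ∀ nn : Fin ξ.r → ℕ, (∀ i, 0 < nn i) → ∀ θ, |dphi ξ nn β m t θ n| ≤ K := by
  set B : Cfg n → ℝ := fun g => ∑ s : Fin n → Bool, ∑ u : Fin n → Bool, |cross m g s u| with hB
  have hBi : Integrable B (gauss (Edge n)) :=
    integrable_finsetSum _ fun s _ => integrable_finsetSum _ fun u _ =>
      (tame_cross m s u).integrable.abs
  have hB0 : ∀ g, 0 ≤ B g := fun g =>
    Finset.sum_nonneg fun s _ => Finset.sum_nonneg fun u _ => abs_nonneg _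
  have hle : ∀ g s u, |cross m g s u| ≤ B g := fun g s u =>
    le_trans (Finset.single_le_sum (f := fun u => |cross m g s u|) (fun u _ => abs_nonneg _)
        (Finset.mem_univ u))
      (Finset.single_le_sum (f := fun s => ∑ u, |cross m g s u|)
        (fun s _ => Finset.sum_nonneg fun u _ => abs_nonneg _) (Finset.mem_univ s))
  refine ⟨β ^ 2 / 2 * (1 + 2 + 1 + 4) + |t| * (β ^ 2 / 2) * (2 * ∫ g, B g ∂gauss (Edge n)),
    fun nn hnn θ => ?_⟩
  rw [dphi_eq β m t θ hn hnn]
  have hq := ξ.isPath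
  have q0 : 0 ≤ ξ.q (Fin.last ξ.r) := hq.nonneg.trans (hq.mono (Fin.zero_le _))
  have g1 : |gapSq n ξ nn β m t θ| ≤ 4 := by
    rw [abs_of_nonneg (gapSq_nonneg β m t θ)]; exact gapSq_le β m t θ
  have g2 : |stateMean ξ nn β m t θ (qSq (ξ := ξ) (nn := nn) (n := n))| ≤ 1 := by
    refine (abs_stateMean_le β m t θ (tame_qSq (ξ := ξ) (nn := nn)) (integrable_const (1 : ℝ))
      (fun _ => zero_le_one) fun g x => ?_).trans (le_of_eq (by simp))
    rw [qSq, abs_pow, abs_of_nonneg (qm_mem ξ nn _ _).1]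
    exact pow_le_one₀ (qm_mem ξ nn _ _).1 (qm_mem ξ nn _ _).2
  have c1 := abs_stateMean_le (ξ := ξ) (nn := nn) β m t θ (tame_cr1 ξ nn m) hBi hB0
    fun g x => hle g _ _
  have c2 := abs_stateMean_le (ξ := ξ) (nn := nn) β m t θ (tame_cr2 ξ nn m) hBi hB0
    fun g x => hle g _ _
  refine (abs_add_le _ _).trans (add_le_add ?_ ?_)
  · rw [abs_mul, abs_mul, abs_of_nonneg (show 0 ≤ β ^ 2 / 2 by positivity), mul_assoc]
    refine mul_le_mul_of_nonneg_left ?_ (by positivity)
    refine (mul_le_of_le_one_left (abs_nonneg _) ?_).trans ?_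
    · rw [abs_mul]
      exact mul_le_one₀ (Real.abs_sin_le_one θ) (abs_nonneg _) (Real.abs_cos_le_one θ)
    · obtain ⟨a1, a2⟩ := abs_le.1 g1
      obtain ⟨b1, b2⟩ := abs_le.1 g2
      rw [abs_le]
      constructor <;> linarith [hq.le_one]
  · rw [abs_mul, abs_mul, abs_mul, abs_of_nonneg (show 0 ≤ β ^ 2 / 2 by positivity)]
    refine mul_le_mul ?_ ((abs_sub _ _).trans (by linarith)) (abs_nonneg _) (by positivity)
    exact mul_le_of_le_one_right (by positivity) (Real.abs_cos_le_one θ)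

/-- From the bound at each angle to the bound on the pressure. -/
theorem pressure_le (hF : FieldLimitStmt) {n : ℕ} (hn : n ≠ 0) (ξ : Path) (hξ : ξ.q 0 = 0)
    {U : ℝ → ℝ} (hUc : ContinuousOn U (Icc (0 : ℝ) (Real.pi / 2))) {S₀ : ℝ}
    (h0 : ∀ᶠ nn in cascFilter ξ.r, t * (β / 2) * stateMean (n := n) ξ nn β m t 0
      (fun g (x : Fin 1 → St ξ nn n) => bform m g (x 0).1 (x 0).1) ≤ S₀)
    (hU : ∀ θ ∈ Icc (0 : ℝ) (Real.pi / 2), ∀ᶠ nn in cascFilter ξ.r,
      dphi ξ nn β m t θ n ≤ U θ) {ε : ℝ} (hε : 0 < ε) :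
    tiltP n β m t ≤ Real.log 2 + siteValue ξ.m (fun p => β ^ 2 * ξ.q p) +
      β ^ 2 * ξ.q (Fin.last ξ.r) / 2 + S₀ + (∫ θ in (0 : ℝ)..Real.pi / 2, U θ) + ε := by
  classical
  have := Vale.Agent.P168.Upper.cascFilter_neBot ξ.r
  have hpi : (0 : ℝ) < Real.pi / 2 := by positivity
  obtain ⟨K, hK⟩ := abs_dphi_le β m t ξ n hn
  obtain ⟨Ku, hKu⟩ := isCompact_Icc.exists_bound_of_continuousOn hUc
  set p := Real.pi / 2 with hp
  set F : (Fin ξ.r → ℕ) → ℝ → ℝ := fun nn u =>
    if (∀ i, 0 < nn i) ∧ u ∈ Icc (0 : ℝ) 1 then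
      max (dphi ξ nn β m t (p * u) n - U (p * u)) 0 else 0 with hFdef
  have hmem : ∀ u ∈ Icc (0 : ℝ) 1, p * u ∈ Icc (0 : ℝ) p := fun u hu =>
    ⟨mul_nonneg hpi.le hu.1, mul_le_of_le_one_right hpi.le hu.2⟩
  set U' : ℝ → ℝ := IccExtend hpi.le ((Icc (0 : ℝ) p).restrict U) with hU'
  have hU'c : Continuous U' := hUc.restrict.Icc_extend'
  have hU'eq : ∀ θ ∈ Icc (0 : ℝ) p, U' θ = U θ := fun θ hθ => IccExtend_of_mem _ _ hθ
  have hFm : ∀ nn, Measurable (F nn) := by
    intro nn
    have e : F nn = fun u => if (∀ i, 0 < nn i) ∧ u ∈ Icc (0 : ℝ) 1 then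
        max (dphi ξ nn β m t (p * u) n - U' (p * u)) 0 else 0 := by
      funext u
      simp only [hFdef]
      split_ifs with h
      · rw [hU'eq _ (hmem u h.2)]
      · rfl
    rw [e]
    refine Measurable.ite ?_ ?_ measurable_const
    · by_cases h : ∀ i, 0 < nn i
      · have e1 : {u : ℝ | (∀ i, 0 < nn i) ∧ u ∈ Icc (0 : ℝ) 1} = Icc (0 : ℝ) 1 :=
          Set.ext fun u => ⟨fun hu => hu.2, fun hu => ⟨h, hu⟩⟩
        rw [e1]; exact measurableSet_Icc
      · simp [h]
    · exact ((((measurable_dphi β m t).comp (measurable_const_mul p))).sub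
        (hU'c.measurable.comp (measurable_const_mul p))).max measurable_const
  have hK0 : ∀ nn u, |F nn u| ≤ |K| + |Ku| := by
    intro nn u
    simp only [hFdef]
    split_ifs with h
    · have h1 := (hK nn h.1 (p * u)).trans (le_abs_self K)
      have h2 := ((Real.norm_eq_abs _).symm.trans_le (hKu _ (hmem u h.2))).trans (le_abs_self Ku)
      rw [abs_of_nonneg (le_max_right _ _)]
      refine max_le ?_ (by positivity)
      linarith [(abs_le.1 h1).2, (abs_le.1 h2).1]
    · rw [abs_zero]; positivity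
  have hlim := Vale.Agent.P168.Upper.tendsto_integral_cascFilter Vale.Agent.P168.unif F
    (fun _ => 0) (|K| + |Ku|) hFm measurable_const hK0 (fun _ => by simp; positivity) fun u => by
      refine tendsto_const_nhds.congr' ?_
      by_cases hu : u ∈ Icc (0 : ℝ) 1
      · filter_upwards [hU _ (hmem u hu)] with nn hnn
        simp only [hFdef]
        split_ifs with h
        · exact (max_eq_right (sub_nonpos.2 hnn)).symm
        · rfl
      · exact .of_forall fun nn => by simp only [hFdef]; exact (if_neg fun h => hu h.2).symm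
  rw [integral_zero] at hlim
  have hn' : (0 : ℝ) < n := Nat.cast_pos.2 (Nat.pos_of_ne_zero hn)
  set L := Real.log 2 + siteValue ξ.m (fun p => β ^ 2 * ξ.q p) +
    β ^ 2 * ξ.q (Fin.last ξ.r) / 2 with hL
  have hlt : (n : ℝ) * L < (n : ℝ) * (L + ε / 2) := mul_lt_mul_of_pos_left (by linarith) hn'
  have hf1 : ∀ᶠ nn in cascFilter ξ.r, fieldLog (n := n) ξ nn β ≤ (n : ℝ) * (L + ε / 2) :=
    (hF ξ n β hξ).eventually (eventually_le_nhds hlt)
  have hpos : (0 : ℝ) < ε / (2 * p) := by positivity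
  have he1 : ∀ᶠ nn in cascFilter ξ.r, ∫ u, F nn u ∂Vale.Agent.P168.unif ≤ ε / (2 * p) :=
    hlim.eventually (eventually_le_nhds hpos)
  obtain ⟨nn, hnn, hS0, hfield, herr⟩ :=
    ((eventually_pos ξ.r).and (h0.and (hf1.and he1))).exists
  have h1 := phi_diff (n := n) β m t hnn
  rw [phi_top β m t hn hnn] at h1
  have h2 := phi_zero_le β m t hn hnn
  rw [phi_zero (n := n) β m hnn] at h2
  have h3 : fieldLog (n := n) ξ nn β / n ≤ L + ε / 2 := by
    rw [div_le_iff₀ hn']
    linarith [hfield]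
  have hdi : IntervalIntegrable (fun θ => dphi ξ nn β m t θ n) volume 0 p := by
    refine (intervalIntegrable_iff_integrableOn_Ioc_of_le hpi.le).2
      (Measure.integrableOn_of_bounded (M := K) (by simp) (measurable_dphi β m t).aestronglyMeasurable
        (ae_of_all _ fun θ => (Real.norm_eq_abs _).trans_le (hK nn hnn θ)))
  have hUi : IntervalIntegrable U volume 0 p := hUc.intervalIntegrable_of_Icc hpi.le
  have h4 : (∫ θ in (0 : ℝ)..p, dphi ξ nn β m t θ n) - (∫ θ in (0 : ℝ)..p, U θ) ≤ ε / 2 := by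
    rw [← intervalIntegral.integral_sub hdi hUi]
    have hsub := intervalIntegral.integral_comp_mul_left
      (f := fun θ => dphi ξ nn β m t θ n - U θ) (a := 0) (b := 1) hpi.ne'
    rw [mul_zero, mul_one, smul_eq_mul, ← one_div, one_div_mul_eq_div, eq_div_iff hpi.ne'] at hsub
    rw [← hsub]
    have hFi : IntervalIntegrable (F nn) volume 0 1 :=
      (intervalIntegrable_iff_integrableOn_Ioc_of_le zero_le_one).2
        (Measure.integrableOn_of_bounded (M := |K| + |Ku|) (by simp) (hFm nn).aestronglyMeasurable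
          (ae_of_all _ fun u => (Real.norm_eq_abs _).trans_le (hK0 nn u)))
    have hmap : IntervalIntegrable
        (fun u => dphi ξ nn β m t (p * u) n - U (p * u)) volume 0 1 := by
      have h := (hdi.sub hUi).comp_mul_left (c := p)
      simpa [hpi.ne'] using h
    have h5 : ∫ u in (0 : ℝ)..1, (dphi ξ nn β m t (p * u) n - U (p * u)) ≤
        ∫ u in (0 : ℝ)..1, F nn u :=
      intervalIntegral.integral_mono_on zero_le_one hmap hFi fun u hu => by
        simp only [hFdef, hnn, hu, implies_true, and_self, if_true]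
        exact le_max_left _ _
    have h6 : ∫ u in (0 : ℝ)..1, F nn u ≤ ε / (2 * p) := by
      rw [intervalIntegral.integral_of_le zero_le_one, ← integral_Icc_eq_integral_Ioc]
      exact herr
    calc (∫ u in (0 : ℝ)..1, (dphi ξ nn β m t (p * u) n - U (p * u))) * p
        ≤ ε / (2 * p) * p := mul_le_mul_of_nonneg_right (h5.trans h6) hpi.le
      _ = ε / 2 := by field_simp
  linarith

end Guerra

/-- The tilted Guerra bound. -/
theorem upper (hS : ShapeLimitStmt) (hF : FieldLimitStmt) (hR : RecStmt) : UpperStmt := by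
  intro β hβ m hm δ hδ
  obtain ⟨A, hA, hang⟩ := angle_bound (m := m) hS hR hβ hm
  obtain ⟨C, hC⟩ := hR β hβ m hm 1 [(m, 0, 0)] (by simpa using hm)
  set η : ℝ := (δ / (8 * β ^ 2)) ^ 2 with hη
  have hη0 : 0 < η := by positivity
  have hsqrt : Real.sqrt η = δ / (8 * β ^ 2) := Real.sqrt_sq (by positivity)
  set D : ℝ := β ^ 2 / 2 * A + β / 2 * |C| + 1 with hD
  have hD0 : 0 < D := by positivity
  refine ⟨min 1 (min η (δ / (2 * D))), by positivity, fun ξ hξ t ht ε hε => ?_⟩
  have ht1 : |t| ≤ 1 := ht.trans (min_le_left _ _)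
  have htη : |t| ≤ η := ht.trans ((min_le_right _ _).trans (min_le_left _ _))
  have htD : |t| * D ≤ δ / 2 := by
    have := ht.trans ((min_le_right _ _).trans (min_le_right _ _))
    rw [le_div_iff₀ (by positivity)] at this
    linarith
  set e : ℝ := ε / (Real.pi + β + 2) with he
  have hden : 0 < Real.pi + β + 2 := by positivity
  have he0 : 0 < e := by positivity
  filter_upwards [hang η hη0 ξ hξ t ht1 htη e he0, hC ξ hξ t ht1 e he0, eventually_ne_atTop 0]
    with n hn1 hn2 hn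
  have h0 : ∀ᶠ nn in cascFilter ξ.r, t * (β / 2) * stateMean (n := n) ξ nn β m t 0
      (fun g (x : Fin 1 → Guerra.St ξ nn n) => bform m g (x 0).1 (x 0).1) ≤
        |t| * (β / 2) * (|C| * |t| + e) := by
    filter_upwards [hn2 0 ⟨le_rfl, by positivity⟩] with nn hnn
    simp only [List.map_cons, List.map_nil, List.prod_cons, List.prod_nil, mul_one,
      List.sum_cons, List.sum_nil, add_zero, Real.sin_zero, mul_zero, zero_pow (show m ≠ 0 by omega),
      zero_mul, sub_zero, abs_zero, zero_add] at hnn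
    refine (le_abs_self _).trans ?_
    rw [abs_mul, abs_mul, abs_of_pos (show 0 < β / 2 by positivity)]
    exact mul_le_mul_of_nonneg_left (hnn.trans (by gcongr; exact le_abs_self C)) (by positivity)
  have hP := Guerra.pressure_le hF hn ξ hξ (Guerra.continuousOn_angleU (β := β) (m := m) (t := t)
    (A := A) (e := e) hη0 ξ) h0 hn1 he0
  have hI := Guerra.integral_angleU_le (t := t) (A := A) (e := e) hβ hm hη0 ξ
  have hsk : skVal β ξ = Real.log 2 + siteValue ξ.m (fun p => β ^ 2 * ξ.q p) +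
      β ^ 2 * ξ.q (Fin.last ξ.r) / 2 +
        β ^ 2 / 4 * (1 - 2 * ξ.q (Fin.last ξ.r) + Guerra.qq ξ) := by
    simp only [skVal, Guerra.qq]; ring
  have herr : |t| * (β / 2) * e + e * (Real.pi / 2) + e ≤ ε := by
    have h1 : |t| * (β / 2) * e ≤ β / 2 * e := by
      rw [mul_assoc]; exact mul_le_of_le_one_left (by positivity) ht1
    have h2 : e * (Real.pi + β + 2) = ε := by rw [he]; field_simp
    linarith [mul_pos he0 Real.pi_pos, mul_pos he0 hβ]
  have hmain : |t| * (β / 2) * (|C| * |t|) + β ^ 2 / 2 * (A * t ^ 2 + 8 * |t| * Real.sqrt η) ≤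
      δ * |t| := by
    have h1 : β ^ 2 / 2 * (8 * |t| * Real.sqrt η) = δ / 2 * |t| := by
      rw [hsqrt]; field_simp
    have h2 := mul_le_mul_of_nonneg_left htD (abs_nonneg t)
    have h3 : t ^ 2 = |t| * |t| := by rw [abs_mul_abs_self]; ring
    rw [hD] at h2
    rw [mul_add, h1, h3]
    nlinarith [abs_nonneg t]
  linarith

end Vale.Agent.P146.Div
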