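import Vale.Agent.P146.Div.Statements
import Vale.Agent.P168.Cascade.Shapes

/-!
Products of overlap kernels: the kernel of a pointwise product of eigenvalues is the product of the
kernels, summed over the replicas of a tree and one new replica.
-/

noncomputable section

open Finset
open scoped BigOperators

namespace Vale.Agent.P146.Div

open Vale.Agent.P168 (Shape shapeProb shapeInit shapeClass shapeRep extProb)
open Vale.Agent.P168.Cascade (IsTree mem_class reps coef attach attach_new attach_new')

namespace Kernel

variable {r k : ℕ} (m : Fin r → ℝ)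

lemma kOff_zero (F : Fin (r + 1) → ℝ) : kOff m F 0 = 0 := by simp [kOff]

lemma kOff_succ (F : Fin (r + 1) → ℝ) (p : Fin r) :
    kOff m F p.succ = kOff m F p.castSucc + (F p.castSucc - F p.succ) / m p := by
  have e : ∀ i : Fin r,
      (if i.val < p.succ.val then (F i.castSucc - F i.succ) / m i else 0) =
        (if i.val < p.castSucc.val then (F i.castSucc - F i.succ) / m i else 0) +
          if i = p then (F i.castSucc - F i.succ) / m i else 0 := by
    intro i
    simp only [Fin.val_succ, Fin.val_castSucc, Fin.ext_iff]
    split_ifs <;> first | omega | simp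
  simp only [kOff, e, Finset.sum_add_distrib, Finset.sum_ite_eq', Finset.mem_univ, if_true]

/-- The branches above a depth restore the eigenvalue there. -/
lemma sum_above (hm : ∀ i, 0 < m i) (F : Fin (r + 1) → ℝ) (u : Fin (r + 1)) :
    ∑ p : Fin r, (if u.val ≤ p.val then
      m p * (kOff m F p.succ - kOff m F p.castSucc) else 0) = F u - F (Fin.last r) := by
  have e : ∀ p : Fin r, m p * (kOff m F p.succ - kOff m F p.castSucc) =
      F p.castSucc - F p.succ := fun p => by
    rw [kOff_succ]; field_simp [(hm p).ne']; ring
  simp only [e]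
  induction u using Fin.reverseInduction with
  | last =>
    rw [sub_self]
    exact Finset.sum_eq_zero fun p _ => if_neg (by simp [Fin.val_last])
  | cast p ih =>
    have h : ∀ i : Fin r, (if p.castSucc.val ≤ i.val then F i.castSucc - F i.succ else 0) =
        (if p.succ.val ≤ i.val then F i.castSucc - F i.succ else 0) +
          if i = p then F i.castSucc - F i.succ else 0 := by
      intro i
      simp only [Fin.val_succ, Fin.val_castSucc, Fin.ext_iff]
      split_ifs <;> first | omega | simp
    simp only [h, Finset.sum_add_distrib, Finset.sum_ite_eq', Finset.mem_univ, if_true, ih]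
    ring

/-- The off-diagonal entry of a product of eigenvalues. -/
lemma kOff_mul (hm : ∀ i, 0 < m i) (F F' : Fin (r + 1) → ℝ) (u : Fin (r + 1)) :
    kOff m (fun p => F p * F' p) u =
      (∑ p : Fin r, if p.val < u.val then m p * (kOff m F p.succ * kOff m F' p.succ -
        kOff m F p.castSucc * kOff m F' p.castSucc) else 0) +
        kOff m F' u * F u + kOff m F u * F' u := by
  induction u using Fin.induction with
  | zero => simp [kOff_zero]
  | succ p ih =>
    have h : ∀ i : Fin r, (if i.val < p.succ.val then m i * (kOff m F i.succ * kOff m F' i.succ -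
        kOff m F i.castSucc * kOff m F' i.castSucc) else 0) =
        (if i.val < p.castSucc.val then m i * (kOff m F i.succ * kOff m F' i.succ -
          kOff m F i.castSucc * kOff m F' i.castSucc) else 0) +
          if i = p then m i * (kOff m F i.succ * kOff m F' i.succ -
            kOff m F i.castSucc * kOff m F' i.castSucc) else 0 := by
      intro i
      simp only [Fin.val_succ, Fin.val_castSucc, Fin.ext_iff]
      split_ifs <;> first | omega | simp
    simp only [h, Finset.sum_add_distrib, Finset.sum_ite_eq', Finset.mem_univ, if_true]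
    rw [kOff_succ, ih, kOff_succ m F p, kOff_succ m F' p]
    have := (hm p).ne'
    field_simp
    ring

variable {m}

lemma min_congr {v : Shape r k} (hv : IsTree v) {q : Fin (r + 1)} {x y : Fin k} (h : q ≤ v x y)
    (z : Fin k) : min q (v y z) = min q (v x z) := by
  have h1 := hv.ultra x y z
  have h2 := hv.ultra y x z
  rw [hv.symm y x] at h2
  refine le_antisymm (le_min (min_le_left _ _) ?_) (le_min (min_le_left _ _) ?_)
  · exact (le_min ((min_le_left _ _).trans h) (min_le_right _ _)).trans h1
  · exact (le_min ((min_le_left _ _).trans h) (min_le_right _ _)).trans h2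

/-- The branching terms at one depth. -/
lemma sum_branch {v : Shape r k} (hv : IsTree v) (a b : Fin k) (f g : Fin (r + 1) → ℝ)
    (p : Fin r) :
    ∑ c ∈ reps v (p.val + 1),
        (f (min p.succ (v c a)) * g (min p.succ (v c b)) -
          f (min p.castSucc (v c a)) * g (min p.castSucc (v c b))) =
      if p.val < (v a b).val then f p.succ * g p.succ - f p.castSucc * g p.castSucc
      else (f p.succ - f p.castSucc) * g (v a b) + f (v a b) * (g p.succ - g p.castSucc) := by
  classical
  set u := v a b
  set ra := shapeRep v (p.val + 1) a with hra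
  set rb := shapeRep v (p.val + 1) b with hrb
  set Δ : Fin k → ℝ := fun c => f (min p.succ (v c a)) * g (min p.succ (v c b)) -
      f (min p.castSucc (v c a)) * g (min p.castSucc (v c b)) with hΔ
  have hp1 : p.val + 1 ≤ r := p.isLt
  have hcl : ∀ {x y : Fin k}, y ∈ shapeClass v (p.val + 1) x ↔ p.succ ≤ v x y := by
    intro x y
    rw [mem_class, if_pos hp1, Fin.le_def, Fin.val_succ]
  have hlow : ∀ {x : Fin k} {c : Fin k}, ¬ p.succ ≤ v c x →
      min p.succ (v c x) = v c x ∧ min p.castSucc (v c x) = v c x := by
    intro x c h
    have h' : (v c x).val ≤ p.val := by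
      rw [Fin.le_def, Fin.val_succ] at h; omega
    exact ⟨min_eq_right (le_of_not_ge h), min_eq_right (by rw [Fin.le_def, Fin.val_castSucc]; exact h')⟩
  have hhigh : ∀ {x : Fin k} {c : Fin k}, p.succ ≤ v c x →
      min p.succ (v c x) = p.succ ∧ min p.castSucc (v c x) = p.castSucc := fun h =>
    ⟨min_eq_left h, min_eq_left ((Fin.castSucc_lt_succ).le.trans h)⟩
  have hzero : ∀ c ∈ reps v (p.val + 1), c ∉ ({ra, rb} : Finset (Fin k)) → Δ c = 0 := by
    intro c hc hne
    have hc' : shapeRep v (p.val + 1) c = c := by simpa [reps] using hc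
    simp only [Finset.mem_insert, Finset.mem_singleton, not_or] at hne
    have na : ¬ p.succ ≤ v c a := fun h => hne.1 (by rw [hra, hv.rep_congr (hcl.2 h), hc'])
    have nb : ¬ p.succ ≤ v c b := fun h => hne.2 (by rw [hrb, hv.rep_congr (hcl.2 h), hc'])
    simp only [hΔ, (hlow na).1, (hlow na).2, (hlow nb).1, (hlow nb).2, sub_self]
  have hsub : ({ra, rb} : Finset (Fin k)) ⊆ reps v (p.val + 1) := by
    intro c hc
    simp only [Finset.mem_insert, Finset.mem_singleton] at hc
    rcases hc with rfl | rfl <;> simp [reps, hra, hrb, hv.rep_rep]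
  rw [show (∑ c ∈ reps v (p.val + 1),
        (f (min p.succ (v c a)) * g (min p.succ (v c b)) -
          f (min p.castSucc (v c a)) * g (min p.castSucc (v c b)))) =
      ∑ c ∈ ({ra, rb} : Finset (Fin k)), Δ c from
    (Finset.sum_subset hsub hzero).symm]
  have haa : p.succ ≤ v ra a := by
    rw [hv.symm ra a]; exact hcl.1 (hv.rep_mem _ a)
  have hbb : p.succ ≤ v rb b := by
    rw [hv.symm rb b]; exact hcl.1 (hv.rep_mem _ b)
  have hab : min p.succ (v ra b) = min p.succ u := (min_congr hv haa b).symm
  have hba : min p.succ (v rb a) = min p.succ u := by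
    rw [← min_congr hv hbb a, hv.symm b a]
  by_cases hu : p.val < u.val
  · have hu' : p.succ ≤ u := by rw [Fin.le_def, Fin.val_succ]; omega
    have e : ra = rb := (hv.rep_congr (hcl.2 hu')).symm
    have hb' : p.succ ≤ v ra b := e ▸ hbb
    simp only [if_pos hu, e, Finset.insert_eq_of_mem (Finset.mem_singleton_self _),
      Finset.sum_singleton, hΔ]
    rw [← e, (hhigh haa).1, (hhigh haa).2, (hhigh hb').1, (hhigh hb').2]
  · have hu' : ¬ p.succ ≤ u := by rw [Fin.le_def, Fin.val_succ]; omega
    have hmu : min p.succ u = u := min_eq_right (le_of_not_ge hu')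
    have nb : ¬ p.succ ≤ v ra b := fun h =>
      hu' (min_eq_left_iff.1 (hab.symm.trans (min_eq_left h)))
    have na : ¬ p.succ ≤ v rb a := fun h =>
      hu' (min_eq_left_iff.1 (hba.symm.trans (min_eq_left h)))
    have e1 : v ra b = u := by rw [← (hlow nb).1, hab, hmu]
    have e2 : v rb a = u := by rw [← (hlow na).1, hba, hmu]
    have hne : ra ≠ rb := fun h => nb (h ▸ hbb)
    have hmu' : min p.castSucc u = u := min_eq_right (by rw [Fin.le_def, Fin.val_castSucc]; omega)
    rw [Finset.sum_pair hne, if_neg hu]
    simp only [hΔ, (hhigh haa).1, (hhigh haa).2, (hhigh hbb).1, (hhigh hbb).2, e1, e2, hmu, hmu']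
    ring

end Kernel

open Kernel in
/-- The kernels multiply. -/
theorem kernel : KernelStmt := by
  intro r k m hm F F' v hv a b
  classical
  have hk : k ≠ 0 := (Fin.pos a).ne'
  set f := kOff m F with hf
  set g := kOff m F' with hg
  set u := v a b with hu
  -- the new replica
  have hext : (k : ℝ) * ∑ v' ∈ Finset.univ.filter (fun v' => shapeInit v' = v),
      shapeProb m (k + 1) v' *
        (kern m F v' a.castSucc (Fin.last k) * kern m F' v' (Fin.last k) b.castSucc) =
      shapeProb m k v * ∑ q : Fin (r + 1), ∑ c ∈ reps v q.val,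
        coef m v q.val c * (f (min q (v c a)) * g (min q (v c b))) := by
    have e : ∀ v' ∈ Finset.univ.filter (fun v' => shapeInit v' = v),
        shapeProb m (k + 1) v' *
          (kern m F v' a.castSucc (Fin.last k) * kern m F' v' (Fin.last k) b.castSucc) =
        shapeProb m k v * (extProb m v' *
          (kern m F v' a.castSucc (Fin.last k) * kern m F' v' (Fin.last k) b.castSucc)) := by
      intro v' hv'
      rw [shapeProb, (Finset.mem_filter.1 hv').2, mul_assoc]
    rw [Finset.sum_congr rfl e, ← Finset.mul_sum, hv.sum_extend hk]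
    simp only [Finset.mul_sum]
    refine Finset.sum_congr rfl fun q _ => Finset.sum_congr rfl fun c _ => ?_
    have h1 : kern m F (attach v q c) a.castSucc (Fin.last k) = f (min q (v c a)) := by
      rw [kern, if_neg (Fin.castSucc_lt_last a).ne, attach_new']
    have h2 : kern m F' (attach v q c) (Fin.last k) b.castSucc = g (min q (v c b)) := by
      rw [kern, if_neg (Fin.castSucc_lt_last b).ne', attach_new]
    rw [h1, h2]
    have : (k : ℝ) ≠ 0 := Nat.cast_ne_zero.2 hk
    field_simp
  rw [hext, ← mul_sub]
  congr 1
  -- summation by parts over the nodes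
  set d : ℕ → Fin k → ℝ := fun p c => if h : p ≤ r then
      f (min ⟨p, Nat.lt_succ_of_le h⟩ (v c a)) * g (min ⟨p, Nat.lt_succ_of_le h⟩ (v c b)) else 0
    with hd
  have hdc : ∀ p x y, y ∈ shapeClass v p x → d p y = d p x := by
    intro p x y hy
    by_cases h : p ≤ r
    · rw [mem_class, if_pos h] at hy
      have hy' : (⟨p, Nat.lt_succ_of_le h⟩ : Fin (r + 1)) ≤ v x y := hy
      simp only [hd, dif_pos h, min_congr hv hy']
    · simp only [hd, dif_neg h]
  have hnode := hv.nodes_identity m d hdc
  have hq : ∀ (q : Fin (r + 1)) (c : Fin k),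
      d q.val c = f (min q (v c a)) * g (min q (v c b)) := fun q c => by
    simp only [hd, dif_pos (Nat.le_of_lt_succ q.isLt)]
  simp only [hq] at hnode
  have htop : ∀ c, d r c = f (v c a) * g (v c b) := fun c => by
    have := hq (Fin.last r) c
    rw [Fin.val_last, min_eq_right (Fin.le_last _), min_eq_right (Fin.le_last _)] at this
    exact this
  have hsucc : ∀ (p : Fin r) (c : Fin k),
      d (p.val + 1) c = f (min p.succ (v c a)) * g (min p.succ (v c b)) := fun p c => by
    simpa using hq p.succ c
  have hcast : ∀ (p : Fin r) (c : Fin k),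
      d p.val c = f (min p.castSucc (v c a)) * g (min p.castSucc (v c b)) := fun p c => by
    simpa using hq p.castSucc c
  simp only [hsucc, hcast, htop, ← Finset.mul_sum, sum_branch hv a b] at hnode
  have hsum : ∑ l, kern m F v a l * kern m F' v l b =
      (∑ l, f (v l a) * g (v l b)) + F (Fin.last r) * g u + F' (Fin.last r) * f u +
        if a = b then F (Fin.last r) * F' (Fin.last r) else 0 := by
    have hfa : ∀ l, kern m F v a l = f (v l a) + if l = a then F (Fin.last r) else 0 := by
      intro l
      by_cases h : l = a
      · subst h; simp [kern, kDiag, hf, hv.diag]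
      · rw [kern, if_neg (Ne.symm h), if_neg h, add_zero, hv.symm a l]
    have hgb : ∀ l, kern m F' v l b = g (v l b) + if l = b then F' (Fin.last r) else 0 := by
      intro l
      by_cases h : l = b
      · subst h; simp [kern, kDiag, hg, hv.diag]
      · rw [kern, if_neg h, if_neg h, add_zero]
    simp only [hfa, hgb, add_mul, mul_add, ite_mul, mul_ite, zero_mul, mul_zero,
      Finset.sum_add_distrib, Finset.sum_ite_eq', Finset.mem_univ, if_true]
    rw [hu, hv.symm b a]
    simp only [eq_comm (a := b) (b := a)]
    ring
  have hsplit : ∑ p : Fin r, m p * (if p.val < u.val then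
        f p.succ * g p.succ - f p.castSucc * g p.castSucc
      else (f p.succ - f p.castSucc) * g u + f u * (g p.succ - g p.castSucc)) =
      (∑ p : Fin r, if p.val < u.val then
        m p * (f p.succ * g p.succ - f p.castSucc * g p.castSucc) else 0) +
      g u * (F u - F (Fin.last r)) + f u * (F' u - F' (Fin.last r)) := by
    rw [← sum_above m hm F u, ← sum_above m hm F' u, Finset.mul_sum, Finset.mul_sum,
      ← Finset.sum_add_distrib, ← Finset.sum_add_distrib]
    refine Finset.sum_congr rfl fun p _ => ?_
    by_cases h : p.val < u.val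
    · simp [h, Nat.not_le.2 h]
    · simp only [h, if_false, Nat.le_of_not_lt h, if_true]; ring
  have hmul := kOff_mul m hm F F' u
  have hlhs : kern m (fun p => F p * F' p) v a b =
      kOff m (fun p => F p * F' p) u + if a = b then F (Fin.last r) * F' (Fin.last r) else 0 := by
    by_cases h : a = b
    · subst h; simp [kern, kDiag, hu, hv.diag]
    · simp [kern, h, hu]
  linarith

end Vale.Agent.P146.Div
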