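import Vale.Agent.P146.Div.Defs
import Vale.Agent.P157.Full.Defs

/-!
Interfaces between the parts of the proof that the variance of the free energy diverges at every
inverse temperature above one.
-/

noncomputable section

open MeasureTheory ProbabilityTheory Filter
open scoped BigOperators Topology

namespace Vale.Agent.P146.Div

open Vale.Agent.P157.Parisi (Path level)
open Vale.Agent.P157.Parisi.Full (logCosh)
open Vale.Agent.P168 (Shape shapeProb cascFilter)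

/-- Module C2: one step of the recursion keeps the shape. -/
def ShapeStepStmt : Prop :=
  ∀ (m δ : ℝ) (F : ℝ → ℝ), 0 < m → m ≤ 1 → 0 ≤ δ → Shape1 F →
    Shape1 (Vale.Agent.P157.Parisi.layer m δ F)

/-- Module C2: the terminal function has the shape. -/
def ShapeBaseStmt : Prop := Shape1 logCosh

/-- Module C1: the Simpson inequality for the relative entropy of a tilt of this shape. -/
def SimpsonStmt : Prop :=
  ∀ (m s : ℝ) (F : ℝ → ℝ), 0 < m → m ≤ 1 → 0 < s → Shape1 F →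
    m * tMean m s F (fun z => F (Real.sqrt s * z)) -
        Real.log (∫ z, Real.exp (m * F (Real.sqrt s * z)) ∂gaussianReal 0 1) ≤
      m ^ 2 * s / 12 *
        (tMean m s F (fun z => z * deriv F (Real.sqrt s * z)) ^ 2 +
          2 * tMean m s F (fun z => deriv F (Real.sqrt s * z) ^ 2))

/-- Module M: below every path there is a marginal one. -/
def MinStmt : Prop :=
  ∀ β : ℝ, 1 < β → ∀ ξ₀ : Path, ξ₀.q 0 = 0 →
    ∃ ξ : Path, ξ.q 0 = 0 ∧ skVal β ξ ≤ skVal β ξ₀ ∧ 1 ≤ β * hat ξ 0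

/-- Module L: the lower bound of the Parisi formula. -/
def LowerStmt : Prop :=
  ∀ β : ℝ, 0 < β → ∀ ε > 0, ∀ᶠ n : ℕ in atTop,
    ∃ ξ : Path, ξ.q 0 = 0 ∧ skVal β ξ ≤ tiltP n β 0 0 + ε

/-- Module U1: fields leave the law of the trees of replicas unchanged. -/
def ShapeLimitStmt : Prop :=
  ∀ (ξ : Path) (n k : ℕ) (h : (Fin n → Bool) → ℝ) (c : ℝ) (G : Shape ξ.r k → ℝ),
    Tendsto (fun nn => shapeMean ξ nn h c G) (cascFilter ξ.r)
      (𝓝 (∑ v, shapeProb ξ.m k v * G v))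

/-- Module U1: the free energy of the fields alone. -/
def FieldLimitStmt : Prop :=
  ∀ (ξ : Path) (n : ℕ) (c : ℝ), ξ.q 0 = 0 →
    Tendsto (fun nn => fieldLog (n := n) ξ nn c) (cascFilter ξ.r)
      (𝓝 ((n : ℝ) * (Real.log 2 +
        Vale.Agent.P157.Parisi.siteValue ξ.m (fun p => c ^ 2 * ξ.q p) +
          c ^ 2 * ξ.q (Fin.last ξ.r) / 2)))

/-- Module K: products of the overlap kernels. -/
def KernelStmt : Prop :=
  ∀ (r k : ℕ) (m : Fin r → ℝ), (∀ i, 0 < m i) →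
    ∀ (F F' : Fin (r + 1) → ℝ) (v : Shape r k), Vale.Agent.P168.Cascade.IsTree v →
      ∀ a b : Fin k,
        shapeProb m k v * kern m (fun p => F p * F' p) v a b =
          shapeProb m k v * (∑ l, kern m F v a l * kern m F' v l b) -
            (k : ℝ) * ∑ v' ∈ Finset.univ.filter (fun v' => Vale.Agent.P168.shapeInit v' = v),
              shapeProb m (k + 1) v' *
                (kern m F v' a.castSucc (Fin.last k) * kern m F' v' (Fin.last k) b.castSucc)

/-- Module U2: products of tilted forms follow the kernels of the tree. -/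
def RecStmt : Prop :=
  ∀ β : ℝ, 0 < β → ∀ m : ℕ, 1 ≤ m → ∀ (k : ℕ) (L : List (ℕ × Fin k × Fin k)),
    1 ≤ (L.map Prod.fst).sum → ∃ C : ℝ, ∀ ξ : Path, ξ.q 0 = 0 → ∀ t : ℝ, |t| ≤ 1 →
      ∀ ε > 0, ∀ᶠ n : ℕ in atTop, ∀ θ ∈ Set.Icc (0 : ℝ) (Real.pi / 2),
        ∀ᶠ nn in cascFilter ξ.r,
          |stateMean (n := n) ξ nn β m t θ
              (fun g x => (L.map fun f => bform f.1 g (x f.2.1).1 (x f.2.2).1).prod) -
            (β * Real.sin θ) ^ (L.map Prod.fst).sum * ∑ v : Shape ξ.r k, shapeProb ξ.m k v *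
              (L.map fun f => kern ξ.m (fun p => hat ξ p ^ (f.1 + 1)) v f.2.1 f.2.2).prod| ≤
            C * (|Real.sin θ| * Real.sqrt (gapSq n ξ nn β m t θ) + |t|) + ε

/-- Module U3: the tilted Guerra bound. -/
def UpperStmt : Prop :=
  ∀ β : ℝ, 0 < β → ∀ m : ℕ, 1 ≤ m → ∀ δ > 0, ∃ t₀ > 0, ∀ ξ : Path, ξ.q 0 = 0 →
    ∀ t : ℝ, |t| ≤ t₀ → ∀ ε > 0, ∀ᶠ n : ℕ in atTop,
      tiltP n β m t ≤ skVal β ξ + t / 2 * (β ^ (m + 1) * powDiag ξ (m + 1)) + δ * |t| + ε

/-- Module V: the variance from the slopes. -/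
def VarStmt : Prop :=
  ∀ β : ℝ, 0 ≤ β → ∀ K : ℕ, ∀ ε > 0, ε ≤ 1 / 8 → ∀ᶠ n : ℕ in atTop,
    (∀ k ∈ Finset.Icc 3 K, 1 / 2 - ε ≤ slope0 n β (k - 1)) →
      (1 / 2 - 2 * ε) ^ 2 / (1 / 2 + ε) * ∑ k ∈ Finset.Icc 3 K, 1 / (k : ℝ) ≤
        variance (freeEnergy n β) (disorder n)

/-- The divergence of the variance. -/
def DivergenceStmt : Prop :=
  ∀ β : ℝ, 1 < β → ∀ M : ℝ, ∀ᶠ n : ℕ in atTop,
    M ≤ variance (freeEnergy n β) (disorder n)

end Vale.Agent.P146.Div
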