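import Vale.Agent.P146.Div.Statements
import Vale.Agent.P146.Div.Lower.Model
import Vale.Agent.P146.Div.Lower.Expansion
import Vale.Agent.P146.Div.Lower.Prepend
import Vale.Agent.P166.NW.Final
import Vale.Agent.P166.NW.Gap.Main

/-!
The lower bound of the Parisi formula for the Sherrington-Kirkpatrick model, from the formula for
negative Wishart couplings with many patterns.
-/

noncomputable section

open MeasureTheory ProbabilityTheory Filter
open scoped BigOperators Topology

namespace Vale.Agent.P146.Div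

open Lower
open Vale.Agent.P157 (isingLaw meanPressure)
open Vale.Agent.P157.Parisi (Path parisi parisiValues)
open Vale.Agent.P166.NW (quadPot)

/-- Module L. -/
theorem lower : LowerStmt := by
  intro β hβ ε hε
  obtain ⟨L, hθ8, hθε, hL⟩ : ∃ L : ℕ, β / Real.sqrt L ≤ 1 / 8 ∧
      β ^ 2 * (|stepConst| + 6) * (β / Real.sqrt L) ≤ ε / 4 ∧ 0 < L := by
    have h := (tendsto_const_nhds (x := β)).div_atTop
      (Real.tendsto_sqrt_atTop.comp (tendsto_natCast_atTop_atTop (R := ℝ)))
    have h' := h.const_mul (β ^ 2 * (|stepConst| + 6))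
    rw [mul_zero] at h'
    exact ((h.eventually_le_const (by norm_num : (0 : ℝ) < 1 / 8)).and
      ((h'.eventually_le_const (by linarith : (0 : ℝ) < ε / 4)).and
        (eventually_gt_atTop 0))).exists
  set θ := β / Real.sqrt L with hθdef
  have hLr : (0 : ℝ) < L := Nat.cast_pos.2 hL
  have hθ : 0 < θ := div_pos hβ (Real.sqrt_pos.2 hLr)
  have hLθ : (L : ℝ) * θ ^ 2 = β ^ 2 := by
    rw [hθdef, div_pow, Real.sq_sqrt hLr.le]; field_simp
  obtain ⟨hb, hT⟩ :=
    Vale.Agent.P166.NW.wishart_formula_of Vale.Agent.P166.NW.gap_stmt 1 θ L one_pos hθ hLr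
  simp only [← Vale.Agent.P166.NW.Spec.meanPressure_quad, one_mul] at hT hb
  set I := sInf (parisiValues (L : ℝ) (quadPot θ))
  obtain ⟨v, ⟨r, m, q, hq, rfl⟩, hv⟩ := exists_lt_of_csInf_lt
    (Vale.Agent.P157.Parisi.Main.parisiValues_nonempty (L : ℝ) (quadPot θ))
    (show I < I + ε / 8 by linarith)
  obtain ⟨ξ, hξ0, hξ⟩ := exists_zero_start ⟨r, m, q, hq⟩ β (show 0 < ε / 4 by linarith)
  filter_upwards [hT.eventually_const_le (show I - ε / 8 < I by linarith),
    eventually_gt_atTop 0] with n hn hn0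
  refine ⟨ξ, hξ0, hξ.trans ?_⟩
  have h1 := pressure_le hn0 hL hβ.le hθ8
  have h2 := parisi_ge ⟨r, m, q, hq⟩ hθ hLr hLθ
  have e3 : (L : ℝ) * (stepConst * θ ^ 3) = β ^ 2 * stepConst * θ := by rw [← hLθ]; ring
  have h4 : β ^ 2 * stepConst * θ ≤ β ^ 2 * |stepConst| * θ :=
    mul_le_mul_of_nonneg_right (mul_le_mul_of_nonneg_left (le_abs_self _) (sq_nonneg β)) hθ.le
  simp only [skVal, ← hθdef] at h1 h2 ⊢
  linarith

end Vale.Agent.P146.Div
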