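import Vale.Agent.P146.Div.Statements
import Vale.Agent.P146.Div.Min.Compact
import Vale.Agent.P146.Div.Min.Deriv

/-!
Below every path there is a marginal one: a minimiser is stationary in its path and in its first
exponent, and the Simpson inequality turns the latter into a bound on the curvature at the root.
-/

noncomputable section

open MeasureTheory ProbabilityTheory Filter Topology
open scoped BigOperators

namespace Vale.Agent.P146.Div

open Vale.Agent.P157.Parisi (Path IsPath level layer tilt weight siteValue level_cons_zero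
  down_cons_succ down_zero)
open Vale.Agent.P157.Parisi.Full (logCosh siteSlope IsFieldPath)
open Vale.Agent.P157.Parisi.Full.Concave (good_level siteSlope_spec)
open Vale.Agent.P157.Parisi.Full.Deriv (Fam)
open Vale.Agent.P157.Parisi.Full.Deriv renaming sq → dsq

namespace Min


lemma nonneg_of_small {a : ℝ} (h : ∀ᶠ t in 𝓝[>] (0 : ℝ), 0 ≤ t * a + t ^ 2) : 0 ≤ a := by
  by_contra ha
  push Not at ha
  obtain ⟨t, ⟨h1, h2⟩, h3⟩ := ((h.and ((eventually_lt_nhds (by linarith : (0 : ℝ) < -a)).filter_mono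
    nhdsWithin_le_nhds)).and self_mem_nhdsWithin).exists
  have h4 : 0 < t := h3
  nlinarith

lemma update_strictMono {n : ℕ} {q : Fin (n + 1) → ℝ} (hq : StrictMono q) (p : Fin (n + 1)) :
    ∀ᶠ e in 𝓝 (0 : ℝ), StrictMono (Function.update q p (q p + e)) := by
  simp only [Fin.strictMono_iff_lt_succ, eventually_all]
  intro i
  have hc : ∀ k, Continuous fun e : ℝ => Function.update q p (q p + e) k := fun k => by
    rcases eq_or_ne k p with rfl | hne
    · simp only [Function.update_self]; fun_prop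
    · simpa [Function.update_of_ne hne] using continuous_const
  have h0 : Function.update q p (q p + 0) = q := by simp
  refine ((hc i.castSucc).tendsto 0).eventually_lt ((hc i.succ).tendsto 0) ?_
  rw [h0]
  exact hq (Fin.castSucc_lt_succ (i := i))

lemma sum_succ_sub : ∀ {n : ℕ} (q : Fin (n + 1) → ℝ),
    ∑ i : Fin n, (q i.succ - q i.castSucc) = q (Fin.last n) - q 0 := by
  intro n
  induction n with
  | zero => intro q; simp [Fin.last]
  | succ n ih =>
    intro q
    rw [Fin.sum_univ_succ]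
    have h := ih (Fin.tail q)
    simp only [Fin.tail, Fin.succ_last, Fin.succ_castSucc] at h
    rw [h]
    simp

lemma weight_pos {r : ℕ} {m : Fin r → ℝ} (hm : StrictMono m) (hm1 : ∀ i, m i < 1)
    {p : Fin (r + 1)} (hp : p ≠ 0) : 0 < weight m p := by
  obtain ⟨i, rfl⟩ := Fin.exists_succ_eq.2 hp
  rw [weight, Fin.cons_succ, sub_pos]
  rcases Fin.eq_castSucc_or_eq_last i.succ with ⟨j, hj⟩ | hl
  · rw [hj, Fin.snoc_castSucc]
    have h := congrArg Fin.val hj
    simp only [Fin.val_succ, Fin.val_castSucc] at h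
    exact hm (Fin.lt_def.2 (by omega))
  · rw [hl, Fin.snoc_last]
    exact hm1 i

lemma val_eq_site (β : ℝ) {r : ℕ} (m : Fin r → ℝ) {q : Fin (r + 1) → ℝ} (h : q 0 = 0) :
    val β m q = Real.log 2 + siteValue m (fun p => β ^ 2 * q p) +
      β ^ 2 / 4 * (1 + ∑ p, weight m p * q p ^ 2) := by
  rw [siteValue_root _ (by simp [h]), sum_weight_mul, val]
  ring

/-- Stationarity of a minimiser in its path. -/
lemma slope_eq {β η : ℝ} (hβ : β ≠ 0) (hη : 0 < η) {r : ℕ}
    {y : (Fin r → ℝ) × (Fin (r + 1) → ℝ)} (hy : y ∈ box η r) (hm : StrictMono y.1)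
    (hq : StrictMono y.2) (hmin : ∀ z ∈ box η r, val β y.1 y.2 ≤ val β z.1 z.2) {p : Fin (r + 1)}
    (hp : p ≠ 0) : siteSlope y.1 (fun i => β ^ 2 * y.2 i) p = y.2 p := by
  obtain ⟨m, q⟩ := y
  obtain ⟨-, hqm, h0, hmb, hqb⟩ := hy
  simp only at hm hq hmin hqm h0 hmb hqb ⊢
  have hm1 : ∀ i, m i < 1 := fun i => by linarith [(hmb i).2]
  have hfp : ∀ {z : Fin (r + 1) → ℝ}, Monotone z → 0 ≤ z 0 →
      IsFieldPath m fun i => β ^ 2 * z i := fun hz h =>
    ⟨fun i => hη.trans_le (hmb i).1, hm1, hm,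
      fun a b hab => mul_le_mul_of_nonneg_left (hz hab) (sq_nonneg β), mul_nonneg (sq_nonneg β) h⟩
  obtain ⟨-, hS⟩ := siteSlope_spec r m _ (hfp hqm h0.ge)
  set S := siteSlope m (fun i => β ^ 2 * q i) p
  set w := weight m p
  have hw : 0 < w := weight_pos hm hm1 hp
  have hev : ∀ᶠ e in 𝓝 (0 : ℝ), q p + e ≤ 1 → 0 ≤ e * (2 * (q p - S)) + e ^ 2 := by
    filter_upwards [update_strictMono hq p] with e hmono he
    set q' := Function.update q p (q p + e) with hq'
    have h0' : q' 0 = 0 := by rw [hq', Function.update_of_ne (Ne.symm hp), h0]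
    have hbox : (m, q') ∈ box η r := by
      refine ⟨hm.monotone, hmono.monotone, h0', hmb, fun i => ⟨?_, ?_⟩⟩
      · exact h0'.symm.le.trans (hmono.monotone (Fin.zero_le i))
      · rcases eq_or_ne i p with rfl | hne
        · simp [hq', he]
        · show q' i ≤ 1
          rw [hq', Function.update_of_ne hne]; exact (hqb i).2
    have h1 := hmin _ hbox
    rw [val_eq_site β m h0, val_eq_site β m h0'] at h1
    have h2 := Vale.Agent.P157.Parisi.Full.Concave.concave_spec
      Vale.Agent.P157.Parisi.Full.siteDeriv_spec r m (fun i => β ^ 2 * q i)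
      (fun i => β ^ 2 * q' i) (hfp hqm h0.ge) (hfp hmono.monotone h0'.ge)
    rw [Finset.sum_eq_single p (fun i _ hi => by simp [hq', Function.update_of_ne hi])
      (fun h => absurd (Finset.mem_univ p) h)] at h2
    have h3 : ∑ i, weight m i * q' i ^ 2 = (∑ i, weight m i * q i ^ 2) + w * (2 * q p * e + e ^ 2) := by
      rw [← sub_eq_iff_eq_add', ← Finset.sum_sub_distrib,
        Finset.sum_eq_single p (fun i _ hi => by simp [hq', Function.update_of_ne hi])
          (fun h => absurd (Finset.mem_univ p) h)]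
      simp only [hq', Function.update_self, w]
      ring
    simp only [hq', Function.update_self] at h2
    rw [h3] at h1
    have h4 : 0 ≤ β ^ 2 * w / 4 * (e * (2 * (q p - S)) + e ^ 2) := by
      simp only [w, S] at h1 ⊢
      linarith
    exact nonneg_of_mul_nonneg_right h4 (by positivity)
  have hneg : Tendsto (fun t : ℝ => -t) (𝓝[>] 0) (𝓝 0) :=
    Tendsto.mono_left (by simpa using (continuous_neg (G := ℝ)).tendsto 0) nhdsWithin_le_nhds
  have hle : q p ≤ S := by
    have h : 0 ≤ 2 * (S - q p) := nonneg_of_small <| by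
      filter_upwards [hneg.eventually hev, self_mem_nhdsWithin] with t ht ht0
      have ht0' : 0 < t := ht0
      have := ht (by linarith [(hqb p).2])
      linarith
    linarith
  rcases lt_or_eq_of_le (hqb p).2 with h1 | h1
  · refine le_antisymm ?_ hle
    have h : 0 ≤ 2 * (q p - S) := nonneg_of_small <| by
      filter_upwards [hev.filter_mono nhdsWithin_le_nhds,
        (eventually_le_nhds (sub_pos.2 h1)).filter_mono nhdsWithin_le_nhds] with t ht ht1
      exact ht (by linarith)
    linarith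
  · exact le_antisymm (h1.symm ▸ (hS p).2) hle

lemma shape_level (hb : ShapeBaseStmt) (hs : ShapeStepStmt) : ∀ {r : ℕ} (m : Fin r → ℝ)
    (ρ : Fin (r + 1) → ℝ), (∀ i, 0 < m i) → (∀ i, m i ≤ 1) → Monotone ρ →
      Shape1 (level m ρ logCosh 0) := by
  intro r
  induction r with
  | zero => exact fun _ _ _ _ _ => hb
  | succ r ih =>
    intro m ρ hm hm1 hρ
    rw [level_cons_zero]
    exact hs _ _ _ (hm 0) (hm1 0) (sub_nonneg.2 (hρ (Fin.zero_le 1)))
      (ih _ _ (fun i => hm i.succ) (fun i => hm1 i.succ) (hρ.comp Fin.strictMono_succ.monotone))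

/-- A minimiser with a first exponent below the margin is marginal. -/
lemma root_bound (hb : ShapeBaseStmt) (hs : ShapeStepStmt) (hS : SimpsonStmt) {β η : ℝ}
    (hβ : 1 < β) (hη : 0 < η) {n : ℕ} {m : Fin (n + 1) → ℝ} {q : Fin (n + 2) → ℝ}
    (hy : (m, q) ∈ box η (n + 1)) (hm : StrictMono m) (hq : StrictMono q)
    (hmin : ∀ z ∈ box η (n + 1), val β m q ≤ val β z.1 z.2) (hlt : m 0 < 1 - η)
    {hat₀ : ℝ} (hhat : hat₀ = 1 - ∑ p, weight m p * q p) (hnn : 0 ≤ hat₀) : 1 ≤ β * hat₀ := by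
  have hy' := hy
  obtain ⟨-, hqm, h0, hmb, hqb⟩ := hy'
  simp only at hqm h0 hmb hqb
  have hpos : ∀ i, 0 < m i := fun i => hη.trans_le (hmb i).1
  have hm1 : ∀ i, m i ≤ 1 := fun i => by linarith [(hmb i).2]
  have hβ2 : (0 : ℝ) < β ^ 2 := by positivity
  set ρ := fun p => β ^ 2 * q p with hρ
  have hρ0 : ρ 0 = 0 := by simp [hρ, h0]
  have hq1 : 0 < q 1 := h0 ▸ hq (by simp)
  set μ := m 0
  set F := level (Fin.tail m) (Fin.tail ρ) logCosh 0 with hF
  set s := ρ 1 - ρ 0 with hsdef
  have hs' : s = β ^ 2 * q 1 := by rw [hsdef, hρ0, sub_zero]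
  have hslope : ∀ p, p ≠ 0 → dsq m ρ logCosh p 0 = q p := fun p hp => by
    rw [← siteSlope_root m hρ0 p]
    exact slope_eq (by linarith) hη hy hm hq hmin hp
  obtain ⟨L, G1, G2, hfam, -, -⟩ := level_fam (m := Fin.tail m) (fun i => hpos i.succ) (Fin.tail ρ)
  obtain ⟨L', H1, H2, hfull, -, hH2⟩ := level_fam hpos ρ
  obtain ⟨L'', hstep⟩ := hfam.step (δ := fun _ => s) (d := 0) (hpos 0)
    ⟨continuous_const, fun t _ => ⟨by simpa using hasDerivAt_const t (Real.sqrt s), by simp⟩,
      by simp [continuousOn_const]⟩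
  have hlev : level m ρ logCosh 0 = layer μ s F := level_cons_zero m ρ logCosh
  have e1 : (fun x => tilt μ s F G1 x) = H1 := funext fun x =>
    (hstep.d1 0 x).unique (hlev ▸ hfull.d1 0 x)
  have hodd : H1 0 = 0 := by
    have hd : deriv (level m ρ logCosh 0) 0 = H1 0 := (hfull.d1 0 0).deriv
    have h := (good_level hpos ρ 0).odInc.odd 0
    rw [neg_zero, hd] at h
    linarith
  have hG1 : deriv F = G1 := funext fun x => (hfam.d1 0 x).deriv
  have hH20 : H2 0 = hat₀ := by
    rw [hH2 0, hhat]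
    congr 1
    refine Finset.sum_congr rfl fun p _ => ?_
    rcases eq_or_ne p 0 with rfl | hp
    · have hz : dsq m ρ logCosh 0 0 = 0 := by
        show Vale.Agent.P157.Parisi.down m ρ logCosh 0
          (fun x => deriv (level m ρ logCosh 0) x ^ 2) 0 = 0
        rw [down_zero]
        simp [(hfull.d1 0 0).deriv, hodd]
      rw [hz, h0]
    · rw [hslope p hp]
  -- the tilted mean of the curvature
  have hcurv : tilt μ s F (fun y => G2 y + μ * G1 y ^ 2) 0 = hat₀ := by
    have h := hstep.d2 0 0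
    have h' : HasDerivAt (fun x => tilt μ s F G1 x) (H2 0) 0 := e1 ▸ hfull.d2 0 0
    have hu := h.unique h'
    have ht : tilt μ s F G1 0 = 0 := (congrFun e1 0).trans hodd
    change tilt μ s F (fun y => G2 y + μ * G1 y ^ 2) 0 - μ * tilt μ s F G1 0 ^ 2 = H2 0 at hu
    rw [ht, hH20] at hu
    linarith
  have hC : tMean μ s F (fun z => z * deriv F (Real.sqrt s * z)) = Real.sqrt s * hat₀ := by
    rw [hG1, tMean_ibp hfam (hpos 0).le, hcurv]
  have hsq : tMean μ s F (fun z => deriv F (Real.sqrt s * z) ^ 2) = q 1 := by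
    rw [tMean_eq_tilt μ s F (fun y => deriv F y ^ 2), ← hslope 1 (by simp),
      ← Fin.succ_zero_eq_one]
    show _ = tilt μ s F (dsq (Fin.tail m) (Fin.tail ρ) logCosh 0) 0
    congr 1
    show _ = Vale.Agent.P157.Parisi.down (Fin.tail m) (Fin.tail ρ) logCosh 0 _
    rw [down_zero]
  have hshape : Shape1 F := shape_level hb hs _ _ (fun i => hpos i.succ) (fun i => hm1 i.succ)
    fun a b hab => mul_le_mul_of_nonneg_left (hqm (Fin.succ_le_succ_iff.2 hab)) hβ2.le
  have hsimp := hS μ s F (hpos 0) (hm1 0) (by rw [hs']; positivity) hshape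
  rw [hC, hsq] at hsimp
  -- moving the first exponent up cannot decrease the functional
  have hd := hasDerivAt_exponent (F := F) (s := s) (hpos 0)
    (good_level (m := Fin.tail m) (fun i => hpos i.succ) (Fin.tail ρ) 0).lip
  set D := (μ * tMean μ s F (fun z => F (Real.sqrt s * z)) -
    Real.log (∫ z, Real.exp (μ * F (Real.sqrt s * z)) ∂gaussianReal 0 1)) / μ ^ 2 with hD
  have hDle : β ^ 2 / 4 * q 1 ^ 2 ≤ D := by
    refine ge_of_tendsto hd.tendsto_slope_zero_right ?_
    filter_upwards [(update_strictMono hm 0).filter_mono nhdsWithin_le_nhds,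
      (eventually_le_nhds (sub_pos.2 hlt)).filter_mono nhdsWithin_le_nhds,
      self_mem_nhdsWithin] with h hmono hle hpos'
    have hh : 0 < h := hpos'
    set m' := Function.update m 0 (m 0 + h) with hm'
    have hbox : (m', q) ∈ box η (n + 1) := by
      refine ⟨hmono.monotone, hqm, h0, fun i => ?_, hqb⟩
      rcases eq_or_ne i 0 with rfl | hi
      · simp only [hm', Function.update_self]
        exact ⟨by linarith [(hmb 0).1], by linarith⟩
      · simp only [hm', Function.update_of_ne hi]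
        exact hmb i
    have h1 := hmin _ hbox
    have et : Fin.tail m' = Fin.tail m := funext fun i => by
      simp [Fin.tail, hm']
    simp only [val_eq_jump, jump_cons _ m' q, jump_cons _ m q, et] at h1
    rw [level_cons_zero m' ρ, level_cons_zero m ρ, et] at h1
    simp only [hm', Function.update_self, h0, ← hF, ← hsdef] at h1 ⊢
    rw [smul_eq_mul, le_inv_mul_iff₀ hh]
    linarith
  have hμ2 : 0 < μ ^ 2 := pow_pos (hpos 0) 2
  rw [hD, le_div_iff₀ hμ2] at hDle
  have hkey : q 1 * 1 ≤ q 1 * (β * hat₀) ^ 2 := by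
    have h := hDle.trans hsimp
    rw [mul_pow, Real.sq_sqrt (by rw [hs']; positivity), hs'] at h
    nlinarith [mul_pos hμ2 (mul_pos hβ2 hq1)]
  have h1 : 1 ≤ (β * hat₀) ^ 2 := le_of_mul_le_mul_left hkey hq1
  exact (one_le_sq_iff_one_le_abs _).1 h1 |>.trans_eq (abs_of_nonneg (by positivity))

end Min

/-- Below every path there is a marginal one. -/
theorem marginal (hb : ShapeBaseStmt) (hs : ShapeStepStmt) (hS : SimpsonStmt) : MinStmt := by
  intro β hβ ξ₀ hξ
  obtain ⟨r₀, m₀, q₀, hp₀⟩ := ξ₀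
  simp only at hξ
  obtain ⟨η, hη, hη2, hη3, hηm⟩ : ∃ η : ℝ, 0 < η ∧ η ≤ 1 / 4 ∧ η ≤ 1 - 1 / β ∧
      ∀ i, η ≤ m₀ i ∧ η ≤ 1 - m₀ i := by
    have hb0 : 0 < 1 - 1 / β := by
      rw [sub_pos, div_lt_one (by linarith)]; exact hβ
    have h : ∀ᶠ η in 𝓝[>] (0 : ℝ), η ≤ 1 / 4 ∧ η ≤ 1 - 1 / β ∧
        ∀ i, η ≤ m₀ i ∧ η ≤ 1 - m₀ i := by
      refine Filter.Eventually.filter_mono nhdsWithin_le_nhds ?_
      refine (eventually_le_nhds (by norm_num)).and ((eventually_le_nhds hb0).and
        (eventually_all.2 fun i => (eventually_le_nhds (hp₀.pos i)).and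
          (eventually_le_nhds (sub_pos.2 (hp₀.lt_one i)))))
    obtain ⟨η, h1, h2⟩ := (Eventually.and (self_mem_nhdsWithin (s := Set.Ioi (0 : ℝ))) h).exists
    exact ⟨η, h1, h2⟩
  have hx : (m₀, q₀) ∈ Min.box η r₀ :=
    ⟨hp₀.strictMono.monotone, hp₀.mono, hξ, fun i => ⟨(hηm i).1, by linarith [(hηm i).2]⟩,
      fun p => ⟨hp₀.nonneg.trans (hp₀.mono (Fin.zero_le p)),
        (hp₀.mono (Fin.le_last p)).trans hp₀.le_one⟩⟩
  obtain ⟨r, ⟨m, q⟩, hy, hm, hq, hle, hmin⟩ := Min.exists_strict (β := β) hη hx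
  have hy' := hy
  obtain ⟨-, hqm, h0, hmb, hqb⟩ := hy'
  simp only at hm hq hle hmin hqm h0 hmb hqb
  have hβη : 1 ≤ β * (1 - η) := by
    calc (1 : ℝ) = β * (1 / β) := by field_simp
      _ ≤ β * (1 - η) := mul_le_mul_of_nonneg_left (by linarith) (by linarith)
  let ξ : Path := ⟨r, m, q, ⟨fun i => hη.trans_le (hmb i).1, fun i => by linarith [(hmb i).2], hm,
    hqm, h0.ge, (hqb _).2⟩⟩
  refine ⟨ξ, h0, ?_, ?_⟩
  · rw [Min.skVal_eq β ξ h0, Min.skVal_eq β ⟨r₀, m₀, q₀, hp₀⟩ hξ]
    exact hle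
  have hhat : hat ξ 0 = 1 - q (Fin.last r) + ∑ i : Fin r, m i * (q i.succ - q i.castSucc) := by
    simp [hat, ξ]
  cases r with
  | zero =>
    rw [hhat, Finset.univ_eq_empty, Finset.sum_empty, show Fin.last 0 = 0 from rfl, h0]
    linarith
  | succ n =>
    have hinc : ∀ i : Fin (n + 1), 0 ≤ q i.succ - q i.castSucc := fun i =>
      sub_nonneg.2 (hqm (Fin.castSucc_le_succ i))
    have hlast := (hqb (Fin.last (n + 1))).2
    by_cases hlt : m 0 < 1 - η
    · refine Min.root_bound hb hs hS hβ hη hy hm hq hmin hlt ?_ ?_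
      · rw [hhat, Min.sum_weight_mul]; ring
      · rw [hhat]
        have : 0 ≤ ∑ i : Fin (n + 1), m i * (q i.succ - q i.castSucc) :=
          Finset.sum_nonneg fun i _ => mul_nonneg (hη.le.trans (hmb i).1) (hinc i)
        linarith
    · push Not at hlt
      have h1 : (1 - η) * (q (Fin.last (n + 1)) - q 0) ≤
          ∑ i : Fin (n + 1), m i * (q i.succ - q i.castSucc) := by
        rw [← Min.sum_succ_sub, Finset.mul_sum]
        exact Finset.sum_le_sum fun i _ => mul_le_mul_of_nonneg_right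
          (hlt.trans (hm.monotone (Fin.zero_le i))) (hinc i)
      rw [h0, sub_zero] at h1
      rw [hhat]
      refine hβη.trans (mul_le_mul_of_nonneg_left ?_ (by linarith))
      nlinarith

end Vale.Agent.P146.Div
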