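import Vale.Agent.P146.Div.Statements
import Vale.Agent.P146.Div.ShapeStep.Cumulant

/-!
The shape of the functions of the recursion: the terminal function has it and every step keeps it.
-/

noncomputable section

open MeasureTheory ProbabilityTheory Filter
open scoped Topology

namespace Vale.Agent.P146.Div.ShapeStep

open Vale.Agent.P157 (dens integral_shift)
open Vale.Agent.P157.Parisi (layer tilt)
open Vale.Agent.P157.Parisi.Full (logCosh hasDerivAt_logCosh hasDerivAt_tanh' sq_tanh_le_one)
open Vale.Agent.P157.Parisi.Full.Concave (tanh_le_tanh tanh_nonneg continuous_tanh)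

variable {F : ℝ → ℝ} {m δ : ℝ}

lemma smooth_of_bd (hd : Differentiable ℝ F) (hb : Bd 3 (deriv F)) :
    ContDiff ℝ 4 F ∧ ∀ j : ℕ, 1 ≤ j → j ≤ 4 → ∃ C, ∀ x, |iteratedDeriv j F x| ≤ C := by
  refine ⟨?_, fun j h1 h4 => ?_⟩
  · rw [show (4 : WithTop ℕ∞) = 3 + 1 from by norm_num]
    exact contDiff_succ_iff_deriv.2 ⟨hd, by simp, hb.contDiff⟩
  · obtain ⟨i, rfl⟩ := Nat.exists_eq_add_of_le' h1
    rw [iteratedDeriv_succ']
    exact hb.iterated i (by omega)

lemma bd_of_shape (h : Shape1 F) : Differentiable ℝ F ∧ Bd 3 (deriv F) := by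
  have h4 := h.smooth
  rw [show (4 : WithTop ℕ∞) = 3 + 1 from by norm_num] at h4
  obtain ⟨hd, -, hc⟩ := contDiff_succ_iff_deriv.1 h4
  refine ⟨hd, bd_of_iterated (by exact_mod_cast hc) fun j hj => ?_⟩
  simpa [iteratedDeriv_succ'] using h.bdd (j + 1) (by omega) (by omega)

lemma bd_tanh : ∀ k, Bd k Real.tanh
  | 0 => ⟨continuous_tanh, 1, fun x => (Real.abs_tanh_lt_one x).le⟩
  | k + 1 => by
    refine ⟨fun x => (hasDerivAt_tanh' x).differentiableAt,
      ⟨1, fun x => (Real.abs_tanh_lt_one x).le⟩, ?_⟩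
    rw [show deriv Real.tanh = fun x => 1 + (-1) * (Real.tanh x * Real.tanh x) from
      funext fun x => (hasDerivAt_tanh' x).deriv.trans (by ring)]
    exact (Bd.const k 1).add ((Bd.const k (-1)).mul ((bd_tanh k).mul (bd_tanh k)))

lemma shape_logCosh : Shape1 logCosh := by
  have hd : deriv logCosh = Real.tanh := funext fun x => (hasDerivAt_logCosh x).deriv
  have h2 : deriv (deriv logCosh) = fun x => 1 - Real.tanh x ^ 2 := by
    rw [hd]; exact funext fun x => (hasDerivAt_tanh' x).deriv
  obtain ⟨hs, hb⟩ := smooth_of_bd (fun x => (hasDerivAt_logCosh x).differentiableAt)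
    (hd ▸ bd_tanh 3)
  refine ⟨fun x => by simp [logCosh], hs, hb, fun x => ?_, ?_⟩
  · rw [h2]; linarith [sq_tanh_le_one x]
  · rw [h2]
    intro x hx y _ hxy
    exact sub_le_sub_left (pow_le_pow_left₀ (tanh_nonneg hx) (tanh_le_tanh hxy) 2) _

lemma deriv2_even (h : ∀ x, F (-x) = F x) (x : ℝ) : deriv (deriv F) (-x) = deriv (deriv F) x := by
  have h1 : deriv F = fun y => -deriv F (-y) := funext fun y => by
    have := deriv_comp_neg F y
    rwa [show (fun z => F (-z)) = F from funext h] at this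
  conv_rhs => rw [h1]
  rw [deriv.fun_neg, deriv_comp_neg, neg_neg]

/-- The potential of one step. -/
lemma pot_of_shape (hm : 0 ≤ m) (h : Shape1 F) : Pot fun g => m * F (Real.sqrt δ * g) := by
  obtain ⟨hd, hb⟩ := bd_of_shape h
  obtain ⟨C, hC⟩ := hb.bound
  have hC0 : 0 ≤ C := (abs_nonneg _).trans (hC 0)
  have hd1 : Differentiable ℝ (deriv F) := hb.1
  refine ⟨continuous_const.mul (hd.continuous.comp (continuous_const.mul continuous_id)),
    fun g => by simp only [mul_neg, h.even], ⟨m * |F 0|, m * C * Real.sqrt δ, by positivity,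
      fun g => ?_⟩, fun s t u v hs hst hu huv => ?_⟩
  · have h1 := (le_abs_self _).trans (abs_le_linear hd hC (Real.sqrt δ * g))
    rw [abs_mul, abs_of_nonneg (Real.sqrt_nonneg δ)] at h1
    linarith [mul_le_mul_of_nonneg_left h1 hm]
  set c := Real.sqrt δ / Real.sqrt 2
  have hc : 0 ≤ c := by positivity
  have e : ∀ y, Real.sqrt δ * (y / Real.sqrt 2) = c * y := fun y => by simp only [c]; ring
  simp only [e, ← mul_add]
  refine mul_le_mul_of_nonneg_left ?_ hm
  set g : ℝ → ℝ := fun w => F (c * (t + w)) + F (c * (t - w)) -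
    (F (c * (s + w)) + F (c * (s - w)))
  suffices hg : AntitoneOn g (Set.Ici 0) by
    have := hg (Set.mem_Ici.2 hu) (Set.mem_Ici.2 (hu.trans huv)) huv
    simp only [g] at this
    linarith
  -- derivatives along the two directions
  have hp : ∀ {φ : ℝ → ℝ}, Differentiable ℝ φ → ∀ r w,
      HasDerivAt (fun y => φ (c * (r + y))) (c * deriv φ (c * (r + w))) w := fun {φ} hφ r w => by
    have h1 : HasDerivAt (fun y => c * (r + y)) c w := by
      simpa using ((hasDerivAt_id w).const_add r).const_mul c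
    exact ((hφ _).hasDerivAt.comp w h1).congr_deriv (mul_comm _ _)
  have hn : ∀ {φ : ℝ → ℝ}, Differentiable ℝ φ → ∀ r w,
      HasDerivAt (fun y => φ (c * (r - y))) (-(c * deriv φ (c * (r - w)))) w := fun {φ} hφ r w => by
    have h1 : HasDerivAt (fun y => c * (r - y)) (-c) w := by
      simpa using ((hasDerivAt_id w).const_sub r).const_mul c
    exact ((hφ _).hasDerivAt.comp w h1).congr_deriv (by ring)
  have hgd : ∀ w, HasDerivAt g (c * (deriv F (c * (t + w)) - deriv F (c * (t - w))) -
      c * (deriv F (c * (s + w)) - deriv F (c * (s - w)))) w := fun w =>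
    (((hp hd t w).add (hn hd t w)).sub ((hp hd s w).add (hn hd s w))).congr_deriv (by ring)
  refine antitoneOn_of_deriv_nonpos (convex_Ici 0)
    (fun w _ => (hgd w).continuousAt.continuousWithinAt)
    (fun w _ => (hgd w).differentiableAt.differentiableWithinAt) fun w hw => ?_
  rw [interior_Ici] at hw
  rw [(hgd w).deriv, ← mul_sub]
  refine mul_nonpos_of_nonneg_of_nonpos hc (sub_nonpos.2 ?_)
  set k : ℝ → ℝ := fun r => deriv F (c * (r + w)) - deriv F (c * (r - w))
  have hkd : ∀ r, HasDerivAt k (c * (deriv (deriv F) (c * (r + w)) -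
      deriv (deriv F) (c * (r - w)))) r := fun r => by
    have h1 : HasDerivAt (fun y => c * (y + w)) c r := by
      simpa using ((hasDerivAt_id r).add_const w).const_mul c
    have h2 : HasDerivAt (fun y => c * (y - w)) c r := by
      simpa using ((hasDerivAt_id r).sub_const w).const_mul c
    exact (((hd1 _).hasDerivAt.comp r h1).sub ((hd1 _).hasDerivAt.comp r h2)).congr_deriv (by ring)
  have hk : AntitoneOn k (Set.Ici 0) := antitoneOn_of_deriv_nonpos (convex_Ici 0)
    (fun r _ => (hkd r).continuousAt.continuousWithinAt)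
    (fun r _ => (hkd r).differentiableAt.differentiableWithinAt) fun r hr => by
      rw [interior_Ici] at hr
      rw [(hkd r).deriv]
      refine mul_nonpos_of_nonneg_of_nonpos hc (sub_nonpos.2 ?_)
      have hw' : (0 : ℝ) < w := hw
      have hr' : (0 : ℝ) < r := hr
      rw [show deriv (deriv F) (c * (r - w)) = deriv (deriv F) |c * (r - w)| by
        rcases abs_choice (c * (r - w)) with e | e <;> rw [e]
        exact (deriv2_even h.even _).symm]
      refine h.anti (Set.mem_Ici.2 (abs_nonneg _))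
        (Set.mem_Ici.2 (mul_nonneg hc (by linarith))) ?_
      rw [abs_mul, abs_of_nonneg hc]
      exact mul_le_mul_of_nonneg_left (abs_le.2 ⟨by linarith, by linarith⟩) hc
  exact hk (Set.mem_Ici.2 hs) (Set.mem_Ici.2 (hs.trans hst)) hst

/-- The second derivative of the logarithm of the mass of the tilt. -/
def curv (Φ : ℝ → ℝ) (a : ℝ) : ℝ :=
  (moment Φ 2 a * moment Φ 0 a - moment Φ 1 a ^ 2) / moment Φ 0 a ^ 2

lemma curv_antitone {Φ : ℝ → ℝ} (h : Pot Φ) : AntitoneOn (curv Φ) (Set.Ici 0) := by
  have hd : ∀ a, HasDerivAt (curv Φ)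
      ((moment Φ 3 a * moment Φ 0 a ^ 2 - 3 * (moment Φ 2 a * moment Φ 1 a * moment Φ 0 a) +
        2 * moment Φ 1 a ^ 3) / moment Φ 0 a ^ 3) a := fun a => by
    have hne := (moment_zero_pos h a).ne'
    refine ((((hasDerivAt_moment h 2 a).mul (hasDerivAt_moment h 0 a)).sub
      ((hasDerivAt_moment h 1 a).pow 2)).div ((hasDerivAt_moment h 0 a).pow 2)
        (pow_ne_zero 2 hne)).congr_deriv ?_
    simp only [Pi.mul_apply, Pi.sub_apply, Pi.pow_apply]
    norm_num
    field_simp
    ring
  exact antitoneOn_of_deriv_nonpos (convex_Ici 0)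
    (fun a _ => (hd a).continuousAt.continuousWithinAt)
    (fun a _ => (hd a).differentiableAt.differentiableWithinAt) fun a ha => by
      rw [interior_Ici] at ha
      rw [(hd a).deriv]
      exact div_nonpos_of_nonpos_of_nonneg (cumulant_nonpos h (Set.mem_Ioi.1 ha).le)
        (pow_nonneg (moment_zero_pos h a).le 3)

lemma moment_zero_neg {Φ : ℝ → ℝ} (h : Pot Φ) (a : ℝ) : moment Φ 0 (-a) = moment Φ 0 a := by
  have hn : (gaussianReal 0 1).map (fun g : ℝ => -g) = gaussianReal 0 1 := by
    rw [gaussianReal_map_neg, neg_zero]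
  unfold moment
  conv_lhs => rw [← hn]
  rw [integral_map measurable_neg.aemeasurable (hn.symm ▸ (integrable_moment h 0 (-a)).1)]
  exact integral_congr_ae (ae_of_all _ fun g => by simp [h.even])

lemma layer_eq (hm : 0 < m) (hδ : 0 < δ) (hP : Pot fun g => m * F (Real.sqrt δ * g)) (x : ℝ) :
    layer m δ F x = 1 / m * (-(x / Real.sqrt δ) ^ 2 / 2 +
      Real.log (moment (fun g => m * F (Real.sqrt δ * g)) 0 (x / Real.sqrt δ))) := by
  set a := x / Real.sqrt δ with ha
  have hs : Real.sqrt δ ≠ 0 := (Real.sqrt_pos.2 hδ).ne'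
  have hx : x = Real.sqrt δ * a := by rw [ha]; field_simp
  have h1 := integral_shift (fun g => Real.exp (m * F (Real.sqrt δ * g))) a
  have e : ∫ g, Real.exp (m * F (x + Real.sqrt δ * g)) ∂gaussianReal 0 1 =
      Real.exp (-a ^ 2 / 2) * moment (fun g => m * F (Real.sqrt δ * g)) 0 a := by
    rw [moment, ← integral_const_mul]
    refine Eq.trans ?_ (h1.trans (integral_congr_ae (ae_of_all _ fun g => ?_)))
    · exact integral_congr_ae (ae_of_all _ fun g => by
        show _ = Real.exp (m * F (Real.sqrt δ * (g + a)))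
        rw [hx]; ring_nf)
    · show Real.exp _ * dens a g = _
      beta_reduce
      rw [dens, pow_zero, one_mul, ← Real.exp_add, ← Real.exp_add]
      ring_nf
  rw [layer, e, Real.log_mul (Real.exp_pos _).ne' (moment_zero_pos hP a).ne', Real.log_exp]

lemma tilt_sq_le (hm : 0 ≤ m) (hd : Differentiable ℝ F) {C : ℝ} (hC : ∀ x, |deriv F x| ≤ C)
    {h : ℝ → ℝ} (hh : Bd 0 h) (x : ℝ) :
    tilt m δ F h x ^ 2 ≤ tilt m δ F (fun y => h y * h y) x := by
  obtain ⟨A, hA⟩ := hh.2
  obtain ⟨A2, hA2⟩ := (hh.mul hh).2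
  have hp := den_pos (δ := δ) hm hd hC x
  have i1 := integrable_integrand (δ := δ) hm hd hC hh.1 hA x
  have i2 := integrable_integrand (δ := δ) hm hd hC (hh.mul hh).1 hA2 x
  have i0 : Integrable (fun g => Real.exp (m * F (x + Real.sqrt δ * g))) (gaussianReal 0 1) :=
    (integrable_integrand (h := fun _ => 1) (A := 1) hm hd hC continuous_const (fun _ => by simp)
      x).congr (ae_of_all _ fun g => mul_one _)
  set c := tilt m δ F h x with hc
  have hnn : 0 ≤ ∫ g, Real.exp (m * F (x + Real.sqrt δ * g)) *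
      (h (x + Real.sqrt δ * g) - c) ^ 2 ∂gaussianReal 0 1 :=
    integral_nonneg fun g => mul_nonneg (Real.exp_pos _).le (sq_nonneg _)
  have e : ∀ g, Real.exp (m * F (x + Real.sqrt δ * g)) * (h (x + Real.sqrt δ * g) - c) ^ 2 =
      integrand m δ F (fun y => h y * h y) x g - 2 * c * integrand m δ F h x g +
        c ^ 2 * Real.exp (m * F (x + Real.sqrt δ * g)) := fun g => by
    simp only [integrand]; ring
  simp only [e] at hnn
  rw [integral_add (i2.sub' (i1.const_mul _)) (i0.const_mul _), integral_sub i2 (i1.const_mul _),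
    integral_const_mul, integral_const_mul] at hnn
  have h1 : ∫ g, integrand m δ F h x g ∂gaussianReal 0 1 =
      c * ∫ g, Real.exp (m * F (x + Real.sqrt δ * g)) ∂gaussianReal 0 1 := by
    rw [hc, tilt, div_mul_cancel₀ _ hp.ne']; rfl
  rw [h1] at hnn
  rw [tilt, le_div_iff₀ hp]
  change 0 ≤ ∫ g, integrand m δ F (fun y => h y * h y) x g ∂_ - _ + _ at hnn
  simp only [integrand] at hnn
  linarith

lemma tilt_nonneg' {h : ℝ → ℝ} (hh : ∀ y, 0 ≤ h y) (x : ℝ) : 0 ≤ tilt m δ F h x :=
  div_nonneg (integral_nonneg fun _ => mul_nonneg (Real.exp_pos _).le (hh _))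
    (integral_nonneg fun _ => (Real.exp_pos _).le)

lemma shape_layer (hm : 0 < m) (hδ : 0 ≤ δ) (h : Shape1 F) : Shape1 (layer m δ F) := by
  rcases hδ.lt_or_eq with hδ | rfl
  swap
  · rw [show layer m 0 F = F from funext fun x => by simp [layer, hm.ne']]
    exact h
  obtain ⟨hd, hb⟩ := bd_of_shape h
  have hb0 : Bd 0 (deriv F) := hb.pred.pred.pred
  have hb1 : Bd 1 (deriv F) := hb.pred.pred
  obtain ⟨C, hC⟩ := hb.bound
  have hL := hasDerivAt_layer (δ := δ) hm hd hb0
  have hLd : deriv (layer m δ F) = tilt m δ F (deriv F) := funext fun x => (hL x).deriv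
  obtain ⟨hs, hbdd⟩ := smooth_of_bd (fun x => (hL x).differentiableAt)
    (hLd ▸ bd_tilt hm.le hd hb hb)
  have hP : Pot fun g => m * F (Real.sqrt δ * g) := pot_of_shape hm.le h
  set Φ := fun g => m * F (Real.sqrt δ * g)
  refine ⟨fun x => ?_, hs, hbdd, fun x => ?_, ?_⟩
  · rw [layer_eq hm hδ hP, layer_eq hm hδ hP, show -x / Real.sqrt δ = -(x / Real.sqrt δ) from
      neg_div _ _, moment_zero_neg hP]
    ring
  · rw [hLd, (hasDerivAt_tilt hm.le hd hb0 hb1 x).deriv]
    have h1 := tilt_sq_le (δ := δ) hm.le hd hC hb0 x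
    obtain ⟨A, hA⟩ := hb1.2.2.bound
    obtain ⟨B, hB⟩ := (hb0.mul hb0).2
    have i1 := integrable_integrand (δ := δ) hm.le hd hC hb1.2.2.1 hA x
    have i2 := integrable_integrand (δ := δ) hm.le hd hC (hb0.mul hb0).1 hB x
    have e : tilt m δ F (fun y => deriv (deriv F) y + m * (deriv F y * deriv F y)) x =
        tilt m δ F (deriv (deriv F)) x + m * tilt m δ F (fun y => deriv F y * deriv F y) x := by
      rw [tilt_eq, tilt_eq, tilt_eq, ← mul_div_assoc, ← add_div, ← integral_const_mul,
        ← integral_add i1 (i2.const_mul m)]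
      congr 1
      exact integral_congr_ae (ae_of_all _ fun g => by simp only [integrand]; ring)
    rw [e]
    have h2 := tilt_nonneg' (m := m) (δ := δ) (F := F) h.nonneg x
    linarith [mul_le_mul_of_nonneg_left h1 hm.le]
  · set s := Real.sqrt δ
    have hs0 : 0 < s := Real.sqrt_pos.2 hδ
    have hfun : layer m δ F = fun x =>
        1 / m * (-(x / s) ^ 2 / 2 + Real.log (moment Φ 0 (x / s))) :=
      funext fun x => layer_eq hm hδ hP x
    have hdiv : ∀ x, HasDerivAt (fun y => y / s) (1 / s) x := fun x => (hasDerivAt_id x).div_const s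
    have hM : ∀ n x, HasDerivAt (fun y => moment Φ n (y / s))
        (moment Φ (n + 1) (x / s) * (1 / s)) x := fun n x =>
      HasDerivAt.comp (h₂ := moment Φ n) x (hasDerivAt_moment hP n (x / s)) (hdiv x)
    have h1 : ∀ x, HasDerivAt (layer m δ F)
        (1 / (m * s) * (-(x / s) + moment Φ 1 (x / s) / moment Φ 0 (x / s))) x := fun x => by
      rw [hfun]
      refine (((((hdiv x).pow 2).neg.div_const 2).add ((hM 0 x).log
        (moment_zero_pos hP _).ne')).const_mul (1 / m)).congr_deriv ?_
      have := hs0.ne'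
      have := (moment_zero_pos hP (x / s)).ne'
      field_simp
      ring_nf
      field_simp
      ring
    have h2 : ∀ x, HasDerivAt (deriv (layer m δ F))
        (1 / (m * s) * (1 / s) * (-1 + curv Φ (x / s))) x := fun x => by
      rw [show deriv (layer m δ F) = fun x =>
        1 / (m * s) * (-(x / s) + moment Φ 1 (x / s) / moment Φ 0 (x / s)) from
          funext fun x => (h1 x).deriv]
      refine (((hdiv x).neg.add ((hM 1 x).div (hM 0 x) (moment_zero_pos hP _).ne')).const_mul
          (1 / (m * s))).congr_deriv ?_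
      simp only [curv]
      field_simp
    intro x hx y hy hxy
    rw [(h2 x).deriv, (h2 y).deriv]
    refine mul_le_mul_of_nonneg_left (add_le_add le_rfl ?_) (by positivity)
    exact curv_antitone hP (Set.mem_Ici.2 (div_nonneg hx hs0.le))
      (Set.mem_Ici.2 (div_nonneg hy hs0.le)) (div_le_div_of_nonneg_right hxy hs0.le)

end Vale.Agent.P146.Div.ShapeStep

namespace Vale.Agent.P146.Div

/-- The terminal function has the shape. -/
theorem shapeBase : ShapeBaseStmt := ShapeStep.shape_logCosh

/-- Every step keeps the shape. -/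
theorem shapeStep : ShapeStepStmt := fun _ _ _ hm _ hδ h => ShapeStep.shape_layer hm hδ h

end Vale.Agent.P146.Div
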