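import Vale.Agent.P146.Div.Statements
import Vale.Agent.P146.Div.Cert
import Vale.Agent.P146.Div.Simpson.Flow

/-!
The Simpson inequality for the relative entropy of a tilt: along the flow the first square `G`
satisfies `(G / t)'' ≥ 0`, and twice the entropy is its integral.
-/

noncomputable section

open MeasureTheory ProbabilityTheory Filter Set
open scoped Topology

namespace Vale.Agent.P146.Div.Simpson

open Vale.Agent.P157.Parisi (layer)

/-- The `j`-th derivative of `z ↦ m F (√s z)`. -/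
def dphi (m s : ℝ) (F : ℝ → ℝ) (j : ℕ) (z : ℝ) : ℝ :=
  m * Real.sqrt s ^ j * iteratedDeriv j F (Real.sqrt s * z)

/-- The polynomial of the `j`-th derivative of the exponential. -/
def coef (φ : ℕ → ℝ) : ℕ → ℝ
  | 0 => 1
  | 1 => φ 1
  | 2 => φ 2 + φ 1 ^ 2
  | 3 => φ 3 + 3 * φ 1 * φ 2 + φ 1 ^ 3
  | 4 => φ 4 + 4 * φ 1 * φ 3 + 3 * φ 2 ^ 2 + 6 * φ 1 ^ 2 * φ 2 + φ 1 ^ 4
  | _ => 0

/-- The kernel and its derivatives. -/
def kernel (m s : ℝ) (F : ℝ → ℝ) (j : ℕ) (z : ℝ) : ℝ :=
  Real.exp (m * F (Real.sqrt s * z)) * coef (fun i => dphi m s F i z) j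

variable {m s : ℝ} {F : ℝ → ℝ}

lemma hasDerivAt_dphi (hF : Shape1 F) {j : ℕ} (hj : j < 4) (z : ℝ) :
    HasDerivAt (dphi m s F j) (dphi m s F (j + 1) z) z := by
  have hd : Differentiable ℝ (iteratedDeriv j F) :=
    hF.smooth.differentiable_iteratedDeriv j (by exact_mod_cast hj)
  refine (((hd (Real.sqrt s * z)).hasDerivAt.comp z ((hasDerivAt_id' z).const_mul _)).const_mul
    (m * Real.sqrt s ^ j)).congr_deriv ?_
  simp only [dphi, iteratedDeriv_succ, pow_succ]
  ring

lemma hasDerivAt_exponent (hF : Shape1 F) (z : ℝ) :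
    HasDerivAt (fun z => m * F (Real.sqrt s * z)) (dphi m s F 1 z) z := by
  have h := hasDerivAt_dphi (m := m) (s := s) hF (j := 0) (by norm_num) z
  rwa [show dphi m s F 0 = fun z => m * F (Real.sqrt s * z) by funext y; simp [dphi]] at h

lemma continuous_dphi (hF : Shape1 F) {j : ℕ} (hj : j ≤ 4) : Continuous (dphi m s F j) :=
  continuous_const.mul ((hF.smooth.continuous_iteratedDeriv j (by exact_mod_cast hj)).comp
    (continuous_const.mul continuous_id))

lemma exists_kern (hF : Shape1 F) : ∃ B a c, Kern (kernel m s F) B a c := by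
  have hd : ∀ j, 1 ≤ j → j ≤ 4 → ∃ C, ∀ z, |dphi m s F j z| ≤ C := fun j h1 h4 => by
    obtain ⟨C, hC⟩ := hF.bdd j h1 h4
    exact ⟨|m * Real.sqrt s ^ j| * C, fun z => by
      rw [dphi, abs_mul]; exact mul_le_mul_of_nonneg_left (hC _) (abs_nonneg _)⟩
  obtain ⟨C1, h1⟩ := hd 1 le_rfl (by norm_num)
  obtain ⟨C2, h2⟩ := hd 2 (by norm_num) (by norm_num)
  obtain ⟨C3, h3⟩ := hd 3 (by norm_num) (by norm_num)
  obtain ⟨C4, h4⟩ := hd 4 (by norm_num) le_rfl
  have p1 : 0 ≤ C1 := (abs_nonneg _).trans (h1 0)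
  have p2 : 0 ≤ C2 := (abs_nonneg _).trans (h2 0)
  have p3 : 0 ≤ C3 := (abs_nonneg _).trans (h3 0)
  have p4 : 0 ≤ C4 := (abs_nonneg _).trans (h4 0)
  refine ⟨1 + C1 + (C2 + C1 ^ 2) + (C3 + 3 * C1 * C2 + C1 ^ 3) +
    (C4 + 4 * C1 * C3 + 3 * C2 ^ 2 + 6 * C1 ^ 2 * C2 + C1 ^ 4), |m * F 0|, C1,
    ?_, ?_, fun z => ?_, ?_, ?_, ?_, ⟨by positivity, p1⟩⟩
  · intro j hj z
    have e := (hasDerivAt_exponent (m := m) (s := s) hF z).exp
    have d1 := hasDerivAt_dphi (m := m) (s := s) hF (j := 1) (by norm_num) z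
    have d2 := hasDerivAt_dphi (m := m) (s := s) hF (j := 2) (by norm_num) z
    have d3 := hasDerivAt_dphi (m := m) (s := s) hF (j := 3) (by norm_num) z
    interval_cases j
    · refine (e.mul_const 1).congr_deriv ?_
      simp [kernel, coef]
    · refine (e.mul d1).congr_deriv ?_
      simp [kernel, coef]; ring
    · refine (e.mul (d2.add (d1.pow 2))).congr_deriv ?_
      simp [kernel, coef]; ring
    · refine (e.mul ((d3.add ((d1.const_mul 3).mul d2)).add (d1.pow 3))).congr_deriv ?_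
      simp [kernel, coef]; ring
  · intro j hj
    have e : Continuous fun z => Real.exp (m * F (Real.sqrt s * z)) :=
      Real.continuous_exp.comp (continuous_const.mul (hF.smooth.continuous.comp
        (continuous_const.mul continuous_id)))
    have c1 := continuous_dphi (m := m) (s := s) hF (j := 1) (by norm_num)
    have c2 := continuous_dphi (m := m) (s := s) hF (j := 2) (by norm_num)
    have c3 := continuous_dphi (m := m) (s := s) hF (j := 3) (by norm_num)
    have c4 := continuous_dphi (m := m) (s := s) hF (j := 4) le_rfl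
    unfold kernel
    interval_cases j <;> simp only [coef] <;> fun_prop
  · simp [kernel, coef, Real.exp_pos]
  · intro j hj z
    have q1 := h1 z
    have q2 := h2 z
    have q3 := h3 z
    have q4 := h4 z
    simp only [kernel, abs_mul, abs_of_pos (Real.exp_pos _), coef, mul_one]
    rw [mul_comm _ (Real.exp _)]
    refine mul_le_mul_of_nonneg_left ?_ (Real.exp_pos _).le
    have r0 : 0 ≤ C1 + (C2 + C1 ^ 2) + (C3 + 3 * C1 * C2 + C1 ^ 3) +
        (C4 + 4 * C1 * C3 + 3 * C2 ^ 2 + 6 * C1 ^ 2 * C2 + C1 ^ 4) := by positivity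
    have a1 : 0 ≤ C1 ^ 2 ∧ 0 ≤ C1 * C2 ∧ 0 ≤ C1 ^ 3 ∧ 0 ≤ C1 * C3 ∧ 0 ≤ C2 ^ 2 ∧
        0 ≤ C1 ^ 2 * C2 ∧ 0 ≤ C1 ^ 4 :=
      ⟨by positivity, by positivity, by positivity, by positivity, by positivity, by positivity,
        by positivity⟩
    have mul3 : ∀ {x y X Y : ℝ}, |x| ≤ X → |y| ≤ Y → |x * y| ≤ X * Y := fun hx hy =>
      (abs_mul _ _).trans_le (mul_le_mul hx hy (abs_nonneg _) ((abs_nonneg _).trans hx))
    have s2 : |dphi m s F 1 z ^ 2| ≤ C1 ^ 2 := by rw [abs_pow]; gcongr
    interval_cases j <;> simp only [coef]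
    · rw [abs_one]; linarith
    · linarith
    · refine (abs_add_le _ _).trans ?_
      linarith
    · refine (abs_add_le _ _).trans (le_trans (add_le_add ((abs_add_le _ _).trans
        (add_le_add q3 (mul3 (mul3 (abs_of_nonneg (by norm_num : (0:ℝ) ≤ 3)).le q1) q2)))
        (show |dphi m s F 1 z ^ 3| ≤ C1 ^ 3 by rw [abs_pow]; gcongr)) ?_)
      linarith
    · refine (abs_add_le _ _).trans (le_trans (add_le_add ((abs_add_le _ _).trans (add_le_add
        ((abs_add_le _ _).trans (add_le_add ((abs_add_le _ _).trans (add_le_add q4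
          (mul3 (mul3 (abs_of_nonneg (by norm_num : (0:ℝ) ≤ 4)).le q1) q3)))
          (mul3 (abs_of_nonneg (by norm_num : (0:ℝ) ≤ 3)).le
            (show |dphi m s F 2 z ^ 2| ≤ C2 ^ 2 by rw [abs_pow]; gcongr))))
          (mul3 (mul3 (abs_of_nonneg (by norm_num : (0:ℝ) ≤ 6)).le s2) q2)))
        (show |dphi m s F 1 z ^ 4| ≤ C1 ^ 4 by rw [abs_pow]; gcongr)) ?_)
      linarith
  all_goals intro z
  all_goals
    have hl : |m * F (Real.sqrt s * z) - m * F 0| ≤ C1 * |z| := by
      simpa using convex_univ.norm_image_sub_le_of_norm_hasDerivWithin_le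
        (f := fun z => m * F (Real.sqrt s * z)) (f' := dphi m s F 1) (C := C1)
        (fun y _ => (hasDerivAt_exponent hF y).hasDerivWithinAt)
        (fun y _ => by simpa using h1 y) (mem_univ 0) (mem_univ z)
    simp only [kernel, coef, mul_one]
    refine Real.exp_le_exp.2 ?_
    linarith [(abs_le.1 hl).1, (abs_le.1 hl).2, le_abs_self (m * F 0), neg_abs_le (m * F 0)]

lemma log_N0 (hm : m ≠ 0) (hs : 0 ≤ s) (t x : ℝ) :
    Real.log (Nj (kernel m s F) 0 t x) = m * layer m (s * (1 - t)) F (Real.sqrt s * x) := by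
  rw [layer, ← mul_assoc, mul_one_div_cancel hm, one_mul]
  congr 1
  simp only [Nj, N, kernel, coef, mul_one]
  refine integral_congr_ae (ae_of_all _ fun g => ?_)
  simp only [Real.sqrt_mul hs, mul_add, mul_assoc]

end Vale.Agent.P146.Div.Simpson

namespace Vale.Agent.P146.Div

open Simpson

open Vale.Agent.P157.Parisi (layer)

theorem simpson (h : ShapeStepStmt) : SimpsonStmt := by
  intro m s F hm hm1 hs hF
  have hm' := hm.ne'
  obtain ⟨B, a, c, hK⟩ := exists_kern (m := m) (s := s) hF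
  set K := kernel m s F with hKdef
  have hφ0 : ∀ z, K 0 z = Real.exp (m * F (Real.sqrt s * z)) := fun z => mul_one _
  have shape : ∀ t ∈ Icc (0 : ℝ) 1, Shape1 (layer m (s * (1 - t)) F) := fun t ht =>
    h m _ F hm hm1 (mul_nonneg hs.le (sub_nonneg.2 ht.2)) hF
  have hf : ∀ t x, HasDerivAt (fun x => Real.log (Nj K 0 t x)) (rat K 1 t x) x := fun t x => by
    simpa [rat] using (hK.hasDerivAt_Nj (j := 0) (by norm_num) t x).log (hK.Nj_pos t x).ne'
  have hq : ∀ t x, HasDerivAt (rat K 1 t) (qf K t x) x := fun t x =>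
    (hK.hasDerivAt_rat (j := 1) (by norm_num) t x).congr_deriv (by simp [qf, sq])
  have hp : ∀ t x, HasDerivAt (qf K t) (pf K t x) x := fun t x =>
    ((hK.hasDerivAt_rat (j := 2) (by norm_num) t x).sub
      ((hK.hasDerivAt_rat (j := 1) (by norm_num) t x).pow 2)).congr_deriv (by simp [pf]; ring)
  -- the shape along the flow
  have hlay : ∀ t ∈ Icc (0 : ℝ) 1, ∀ x,
      HasDerivAt (fun x => Real.log (Nj K 0 t x))
        (m * Real.sqrt s * deriv (layer m (s * (1 - t)) F) (Real.sqrt s * x)) x := fun t ht x => by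
    rw [show (fun x => Real.log (Nj K 0 t x)) =
      fun x => m * layer m (s * (1 - t)) F (Real.sqrt s * x) from
        funext fun x => log_N0 hm' hs.le t x]
    refine ((((shape t ht).smooth.differentiable (by norm_num)) (Real.sqrt s * x)).hasDerivAt.comp x
      ((hasDerivAt_id' x).const_mul _) |>.const_mul m).congr_deriv ?_
    ring
  have heq : ∀ t ∈ Icc (0 : ℝ) 1, ∀ x,
      rat K 1 t x = m * Real.sqrt s * deriv (layer m (s * (1 - t)) F) (Real.sqrt s * x) :=
    fun t ht x => (hf t x).unique (hlay t ht x)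
  have hq2 : ∀ t ∈ Icc (0 : ℝ) 1, ∀ x,
      qf K t x = m * s * deriv (deriv (layer m (s * (1 - t)) F)) (Real.sqrt s * x) := fun t ht x => by
    refine (hq t x).unique ?_
    rw [show rat K 1 t = fun x => m * Real.sqrt s * deriv (layer m (s * (1 - t)) F) (Real.sqrt s * x)
      from funext (heq t ht)]
    have hd := (shape t ht).smooth.differentiable_iteratedDeriv 1 (by norm_num)
    rw [iteratedDeriv_one] at hd
    refine (((hd (Real.sqrt s * x)).hasDerivAt.comp x ((hasDerivAt_id' x).const_mul _)).const_mul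
      (m * Real.sqrt s)).congr_deriv ?_
    linear_combination m * deriv (deriv (layer m (s * (1 - t)) F)) (Real.sqrt s * x) *
      Real.mul_self_sqrt hs.le
  have heven : ∀ t ∈ Icc (0 : ℝ) 1, ∀ x, Real.log (Nj K 0 t (-x)) = Real.log (Nj K 0 t x) :=
    fun t ht x => by
      rw [log_N0 hm' hs.le, log_N0 hm' hs.le, mul_neg, (shape t ht).even]
  have hodd : ∀ t ∈ Icc (0 : ℝ) 1, ∀ x, rat K 1 t (-x) = -rat K 1 t x := fun t ht x => by
    have h2 := ((hf t (-x)).comp x (hasDerivAt_neg x))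
    have h3 : HasDerivAt ((fun x => Real.log (Nj K 0 t x)) ∘ fun y => -y) (rat K 1 t x) x :=
      (hf t x).congr_of_eventuallyEq (Eventually.of_forall fun y => heven t ht y)
    have := h2.unique h3
    linarith
  have hconc : ∀ t ∈ Icc (0 : ℝ) 1, ∀ x, 0 < x → pf K t x ≤ 0 := fun t ht x hx => by
    have hlim := hasDerivWithinAt_iff_tendsto_slope' self_notMem_Ioi |>.1
      ((hp t x).hasDerivWithinAt (s := Ioi x))
    refine le_of_tendsto hlim (eventually_nhdsWithin_of_forall fun y (hy : x < y) => ?_)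
    have := (shape t ht).anti (mem_Ici.2 (by positivity : 0 ≤ Real.sqrt s * x))
      (mem_Ici.2 (mul_nonneg (Real.sqrt_nonneg s) (hx.trans hy).le))
      (mul_le_mul_of_nonneg_left hy.le (Real.sqrt_nonneg s))
    rw [slope_def_field, hq2 t ht, hq2 t ht]
    exact div_nonpos_of_nonpos_of_nonneg
      (sub_nonpos.2 (mul_le_mul_of_nonneg_left this (mul_nonneg hm.le hs.le))) (sub_nonneg.2 hy.le)
  -- Gaussian means along the flow
  set Z := ∫ z, Real.exp (m * F (Real.sqrt s * z)) ∂gaussianReal 0 1 with hZ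
  have hN00 : Nj K 0 0 0 = Z := by simp [Nj, N, hZ, hφ0]
  have hZ0 : 0 < Z := hN00 ▸ hK.Nj_pos 0 0
  set A := tMean m s F fun z => z * deriv F (Real.sqrt s * z) with hA
  set E := tMean m s F fun z => deriv F (Real.sqrt s * z) ^ 2 with hE
  have e1 : ∀ z, K 1 z = Real.exp (m * F (Real.sqrt s * z)) *
      (m * Real.sqrt s * deriv F (Real.sqrt s * z)) := fun z => by
    simp [hKdef, kernel, coef, dphi, iteratedDeriv_one]
  have av_zero : ∀ Φ : ℝ → ℝ → ℝ, av Φ 0 = Φ 0 0 := fun Φ => by simp [av]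
  have av_one : ∀ Φ : ℝ → ℝ → ℝ, av Φ 1 = ∫ z, Φ 1 z ∂gaussianReal 0 1 := fun Φ => by
    simp [av]
  have r10 : rat K 1 0 0 = 0 := by
    have := hodd 0 (left_mem_Icc.2 zero_le_one) 0
    rw [neg_zero] at this
    linarith
  have G0 : av (phi1 K) 0 = 0 := by simp [av_zero, phi1, r10]
  have hAq : av (phi2 K) 0 = Z * (m * Real.sqrt s * A) ^ 2 := by
    rw [av_zero, phi2, qf, r10, hN00]
    have ibp := Vale.Agent.P157.Parisi.Full.Deriv.ibp (φ := K 1) (φ' := K 2)
      (K := B * Real.exp a) (c := c) (hK.der 1 (by norm_num)) (hK.cont 2 (by norm_num))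
      (fun x => (hK.dom 1 (by norm_num) x).trans (by
        rw [mul_assoc, ← Real.exp_add]; exact mul_le_mul_of_nonneg_left (hK.up x) hK.nn.1))
      (fun x => (hK.dom 2 (by norm_num) x).trans (by
        rw [mul_assoc, ← Real.exp_add]; exact mul_le_mul_of_nonneg_left (hK.up x) hK.nn.1))
    have hr : rat K 2 0 0 = m * Real.sqrt s * A := by
      rw [rat, hN00, hA, tMean, ← hZ]
      rw [show Nj K 2 0 0 = ∫ z, K 2 z ∂gaussianReal 0 1 by simp [Nj, N], ← ibp]
      simp only [e1]
      rw [← mul_div_assoc, ← integral_const_mul]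
      congr 1
      exact integral_congr_ae (ae_of_all _ fun z => by ring)
    rw [hr]; ring
  have hG1 : av (phi1 K) 1 = Z * (m ^ 2 * s * E) := by
    rw [av_one, hE, tMean, ← hZ, mul_left_comm, mul_div_cancel₀ _ hZ0.ne', ← integral_const_mul]
    refine integral_congr_ae (ae_of_all _ fun z => ?_)
    simp only [phi1, rat, Nj, N_one, e1, hφ0]
    field_simp
    rw [Real.sq_sqrt hs.le]
    ring
  have hI : av (phi0 K) 1 - av (phi0 K) 0 =
      Z * (m * tMean m s F (fun z => F (Real.sqrt s * z)) - Real.log Z) := by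
    rw [av_one, av_zero, phi0, hN00, tMean, ← hZ, mul_sub, mul_left_comm,
      mul_div_cancel₀ _ hZ0.ne', ← integral_const_mul]
    congr 1
    refine integral_congr_ae (ae_of_all _ fun z => ?_)
    simp only [phi0, Nj, N_one, hφ0, Real.log_exp]
    ring
  -- the three flows
  have f1 : FlowBd (phi1 K) := hK.flowBd' (fun r _ _ _ => r ^ 2) (continuous_fst.pow 2)
  have f2 : FlowBd (phi2 K) := hK.flowBd' (fun r s _ _ => (s - r ^ 2) ^ 2) (by fun_prop)
  have f0 : FlowBd (phi0 K) := by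
    convert hK.flowBd (fun _ _ _ _ => 1) continuous_const 0 1 using 2
    funext x
    simp [phi0]
  have hK2 : ∀ t ∈ Ioo (0 : ℝ) 1,
      0 ≤ t ^ 2 * av (phi3 K) t - 2 * t * av (phi2 K) t + 2 * av (phi1 K) t := fun t ht => by
    have hI : t ∈ Icc (0 : ℝ) 1 := Ioo_subset_Icc_self ht
    have f3 : FlowBd (phi3 K) := hK.flowBd'
      (fun r s u _ => (u - 3 * r * s + 2 * r ^ 3) ^ 2 - 2 * (s - r ^ 2) ^ 3) (by fun_prop)
    obtain ⟨hB, -⟩ := hK.nn
    have key := Cert.gauss (F := fun x => Real.log (Nj K 0 t x)) (f := rat K 1 t)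
      (f1 := qf K t) (f2 := pf K t) (hf t) (hq t) (hp t) (heven t hI) (hodd t hI)
      (fun x => by
        rw [hq2 t hI x]; exact mul_nonneg (mul_nonneg hm.le hs.le) ((shape t hI).nonneg _))
      (hconc t hI) (c := B + (B + B ^ 2) + (B + 3 * B * B + 2 * B ^ 3))
      (fun x => (hK.abs_rat_le (by norm_num) t x).trans (by
        linarith [sq_nonneg B, mul_nonneg hB hB, pow_nonneg hB 3]))
      (fun x => by
        refine (abs_sub _ _).trans ?_
        rw [abs_pow]
        linarith [hK.abs_rat_le (j := 2) (by norm_num) t x, pow_le_pow_left₀ (abs_nonneg _)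
          (hK.abs_rat_le (j := 1) (by norm_num) t x) 2, mul_nonneg hB hB, pow_nonneg hB 3])
      (fun x => by
        refine (abs_add_le _ _).trans ((add_le_add (abs_sub _ _) le_rfl).trans ?_)
        rw [abs_mul, abs_mul, abs_mul, abs_pow, abs_two,
          abs_of_nonneg (by norm_num : (0:ℝ) ≤ 3)]
        have b1 := hK.abs_rat_le (j := 1) (by norm_num) t x
        have b2 := hK.abs_rat_le (j := 2) (by norm_num) t x
        linarith [hK.abs_rat_le (j := 3) (by norm_num) t x, pow_le_pow_left₀ (abs_nonneg _) b1 3,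
          mul_le_mul b1 b2 (abs_nonneg _) hB, sq_nonneg B])
      (Real.sqrt_pos.2 ht.1)
    refine key.trans_eq ?_
    simp only [av]
    rw [← integral_const_mul, ← integral_const_mul, ← integral_const_mul,
      ← integral_sub ((f3.integrable hI).const_mul _) ((f2.integrable hI).const_mul _),
      ← integral_add (((f3.integrable hI).const_mul _).sub' ((f2.integrable hI).const_mul _))
        ((f1.integrable hI).const_mul _)]
    refine integral_congr_ae (ae_of_all _ fun z => ?_)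
    simp only [phi1, phi2, phi3, Real.exp_log (hK.Nj_pos t _)]
    rw [show Real.sqrt t ^ 4 = t ^ 2 by
      rw [show (4 : ℕ) = 2 * 2 from rfl, pow_mul, Real.sq_sqrt ht.1.le], Real.sq_sqrt ht.1.le]
    ring
  have hd0 : HasDerivWithinAt (av (phi1 K)) (av (phi2 K) 0) (Ioi 0) 0 := by
    refine (hasDerivWithinAt_Ici_of_tendsto_deriv
      (s := Ioo (0 : ℝ) 1) ?_ ?_ (Ioo_mem_nhdsGT zero_lt_one) ?_).Ioi_of_Ici
    · exact fun t ht => (hK.hasDerivAt_av1 ht).differentiableAt.differentiableWithinAt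
    · exact (f1.continuousOn_av 0 (left_mem_Icc.2 zero_le_one)).mono Ioo_subset_Icc_self
    · have : Tendsto (av (phi2 K)) (𝓝[>] 0) (𝓝 (av (phi2 K) 0)) :=
        ((f2.continuousOn_av 0 (left_mem_Icc.2 zero_le_one)).mono_of_mem_nhdsWithin
          (Icc_mem_nhdsGT zero_lt_one)).tendsto
      refine this.congr' ?_
      filter_upwards [Ioo_mem_nhdsGT zero_lt_one] with t ht using (hK.hasDerivAt_av1 ht).deriv.symm
  have hG : ∀ t ∈ Icc (0 : ℝ) 1,
      av (phi1 K) t / 2 ≤ (t * (1 - t) * av (phi2 K) 0 + t ^ 2 * av (phi1 K) 1) / 2 := by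
    intro t ht
    rcases eq_or_lt_of_le ht.1 with h0 | h0
    · simp [← h0, G0]
    rcases eq_or_lt_of_le ht.2 with h1 | h1
    · simp [h1]
    have := Cert.chord (G := av (phi1 K)) (G1 := av (phi2 K)) (G2 := av (phi3 K)) zero_lt_one G0
      f1.continuousOn_av hd0 (fun u hu => hK.hasDerivAt_av1 hu) (fun u hu => hK.hasDerivAt_av2 hu)
      hK2 ⟨h0, h1⟩
    rw [div_le_iff₀ h0] at this
    simp only [div_one] at this
    linarith
  have hc1 : ContinuousOn (fun t => av (phi1 K) t / 2) (Icc 0 1) :=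
    f1.continuousOn_av.div_const 2
  have hft : av (phi0 K) 1 - av (phi0 K) 0 = ∫ t in (0:ℝ)..1, av (phi1 K) t / 2 := by
    refine (intervalIntegral.integral_eq_sub_of_hasDerivAt_of_le zero_le_one f0.continuousOn_av
      (fun t ht => (hK.hasDerivAt_av0 ht).congr_deriv ?_)
      (hc1.intervalIntegrable_of_Icc zero_le_one)).symm
    simp only [av]
    exact integral_div 2 _
  have hle : ∫ t in (0:ℝ)..1, av (phi1 K) t / 2 ≤
      ∫ t in (0:ℝ)..1, (t * (1 - t) * av (phi2 K) 0 + t ^ 2 * av (phi1 K) 1) / 2 :=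
    intervalIntegral.integral_mono_on zero_le_one (hc1.intervalIntegrable_of_Icc zero_le_one)
      (Continuous.intervalIntegrable (by fun_prop) _ _) hG
  have hval : ∫ t in (0:ℝ)..1, (t * (1 - t) * av (phi2 K) 0 + t ^ 2 * av (phi1 K) 1) / 2 =
      av (phi2 K) 0 / 12 + av (phi1 K) 1 / 6 := by
    have e : ∀ t : ℝ, (t * (1 - t) * av (phi2 K) 0 + t ^ 2 * av (phi1 K) 1) / 2 =
        av (phi2 K) 0 / 2 * t + (av (phi1 K) 1 - av (phi2 K) 0) / 2 * t ^ 2 := fun t => by ring
    simp only [e]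
    rw [intervalIntegral.integral_add (Continuous.intervalIntegrable (by fun_prop) _ _)
      (Continuous.intervalIntegrable (by fun_prop) _ _), intervalIntegral.integral_const_mul,
      intervalIntegral.integral_const_mul, integral_id, integral_pow]
    norm_num
    ring
  have hfin := (hft.trans_le hle).trans_eq hval
  rw [hI, hAq, hG1, mul_pow, mul_pow, Real.sq_sqrt hs.le] at hfin
  have : Z * (m * tMean m s F (fun z => F (Real.sqrt s * z)) - Real.log Z) ≤
      Z * (m ^ 2 * s / 12 * (A ^ 2 + 2 * E)) := hfin.trans_eq (by ring)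
  exact le_of_mul_le_mul_left this hZ0

end Vale.Agent.P146.Div
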