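import Vale.Agent.P146.Div.Var.Limit
import Vale.Agent.P146.Div.Statements
import Vale.Agent.P146.NearOne.Main

/-!
A lower bound for the variance of the free energy from the slopes of the tilted pressures.
-/

noncomputable section

open MeasureTheory ProbabilityTheory Finset Filter
open scoped Topology

namespace Vale.Agent.P146.Div

open Var

attribute [local instance] Interp.isProb

variable {n : ℕ}

/-- The test function of the variance bound. -/
def test (K : ℕ) (g : Cfg n) : ℝ := ∑ k ∈ Icc 3 K, 1 / (k : ℝ) * psi (k - 1) g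

/-- Its leading part. -/
def lead (K : ℕ) (g : Cfg n) : ℝ := ∑ k ∈ Icc 3 K, 1 / (k : ℝ) * stat k g

/-- Its remainder. -/
def testRem (K : ℕ) (g : Cfg n) : ℝ := ∑ k ∈ Icc 3 K, 1 / (k : ℝ) * rem (k - 1) g

theorem tame_test (K : ℕ) : Tame (test (n := n) K) :=
  Tame.sum _ fun _ _ => Tame.const_mul _ (tame_psi _)

theorem tame_lead (K : ℕ) : Tame (lead (n := n) K) :=
  Tame.sum _ fun _ _ => Tame.const_mul _ (tame_stat _)

theorem tame_testRem (K : ℕ) : Tame (testRem (n := n) K) :=
  Tame.sum _ fun _ _ => Tame.const_mul _ (tame_rem _)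

theorem test_eq (hn : n ≠ 0) (K : ℕ) (g : Cfg n) :
    test K g = lead K g - testRem K g - ∑ k ∈ Icc 3 K, 1 / (k : ℝ) * cst (k - 1) := by
  simp only [test, lead, testRem, ← sum_sub_distrib, ← mul_sub]
  refine sum_congr rfl fun k hk => ?_
  obtain ⟨j, rfl⟩ : ∃ j, k = j + 3 := ⟨k - 3, by have := (mem_Icc.1 hk).1; omega⟩
  rw [show j + 3 - 1 = j + 2 by omega, psi_eq hn]

theorem mean_test_mul (K : ℕ) {f : Cfg n → ℝ} (hf : Tame f) :
    mean (fun g => test K g * f g) =
      ∑ k ∈ Icc 3 K, 1 / (k : ℝ) * mean (fun g => psi (k - 1) g * f g) := by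
  simp only [mean, test, sum_mul, mul_assoc]
  rw [integral_finsetSum _ fun k _ => (Tame.const_mul _ ((tame_psi _).mul hf)).integrable]
  simp only [integral_const_mul]

theorem mean_test (hn : n ≠ 0) (K : ℕ) : mean (test (n := n) K) = 0 := by
  have h := mean_test_mul K (n := n) (Tame.const (1 : ℝ))
  simp only [mul_one] at h
  rw [h]
  exact sum_eq_zero fun k _ => by rw [mean_psi hn, mul_zero]

/-- The covariance with one statistic. -/
theorem psi_stat_tendsto (m j : ℕ) :
    Tendsto (fun n => mean (fun g : Cfg n => psi m g * stat (j + 2) g)) atTop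
      (𝓝 (2 * ((j : ℝ) + 2) * if m = j + 1 then 1 else 0)) := by
  have hlim : ∑ l ∈ range (min m (j + 1) + 1), (if m + (j + 1) - 2 * l = 0 then (1 : ℝ) else 0) =
      if m = j + 1 then 1 else 0 := by
    split_ifs with h
    · subst h
      rw [sum_eq_single (j + 1)]
      · rw [if_pos (by omega)]
      · intro l hl hne
        rw [mem_range] at hl
        rw [if_neg (by omega)]
      · simp
    · refine sum_eq_zero fun l hl => ?_
      rw [mem_range] at hl
      rw [if_neg (by omega)]
  rw [← hlim]
  refine Tendsto.congr' ((eventually_ne_atTop 0).mono fun n hn => (mean_psi_stat hn m j).symm)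
    ((tendsto_finsetSum _ fun l _ => ?_).const_mul _)
  simpa [mean_trC] using (mean_trC_tendsto (m + (j + 1) - 2 * l)).add_const
    (if m + (j + 1) - 2 * l = 0 then (1 : ℝ) else 0)

theorem test_lead_tendsto (K : ℕ) :
    Tendsto (fun n => mean (fun g : Cfg n => test K g * lead K g)) atTop
      (𝓝 (2 * ∑ k ∈ Icc 3 K, 1 / (k : ℝ))) := by
  have e : ∀ᶠ n : ℕ in atTop, ∑ k ∈ Icc 3 K, 1 / (k : ℝ) *
      ∑ i ∈ Icc 3 K, 1 / (i : ℝ) * mean (fun g : Cfg n => psi (k - 1) g * stat i g) =
        mean (fun g : Cfg n => test K g * lead K g) := by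
    filter_upwards [eventually_ne_atTop 0] with n hn
    rw [mean_test_mul K (tame_lead K)]
    refine sum_congr rfl fun k _ => ?_
    congr 1
    simp only [mean, lead, mul_sum, mul_left_comm (psi (k - 1) _)]
    rw [integral_finsetSum _ fun i _ =>
      (Tame.const_mul _ ((tame_psi _).mul (tame_stat _))).integrable]
    simp only [integral_const_mul]
  refine Tendsto.congr' e ?_
  rw [mul_sum]
  refine tendsto_finsetSum _ fun k hk => ?_
  have hk3 : 3 ≤ k := (mem_Icc.1 hk).1
  have hlim : ∀ i ∈ Icc 3 K, Tendsto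
      (fun n => 1 / (i : ℝ) * mean (fun g : Cfg n => psi (k - 1) g * stat i g)) atTop
      (𝓝 (if i = k then 2 else 0)) := by
    intro i hi
    obtain ⟨j, rfl⟩ : ∃ j, i = j + 2 := ⟨i - 2, by have := (mem_Icc.1 hi).1; omega⟩
    convert (psi_stat_tendsto (k - 1) j).const_mul (1 / ((j + 2 : ℕ) : ℝ)) using 2
    by_cases h : j + 2 = k
    · rw [if_pos h, if_pos (by omega)]
      push_cast
      field_simp
    · rw [if_neg h, if_neg (by omega), mul_zero, mul_zero]
  convert (tendsto_finsetSum _ hlim).const_mul (1 / (k : ℝ)) using 2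
  rw [sum_ite_eq', if_pos hk]
  ring

theorem negl_testRem (K : ℕ) : Negl fun _ g => testRem K g :=
  Negl.sum _ fun _ _ => (negl_rem _).const_mul _

/-- The covariance of the free energy and one divergence form. -/
theorem mean_psi_Fen (hn : n ≠ 0) (β : ℝ) (m : ℕ) :
    mean (fun g : Cfg n => psi m g * Fen β g) = 2 * slope0 n β m - β * mean (trU (n := n) m) := by
  classical
  have hn' : (n : ℝ) ≠ 0 := by exact_mod_cast hn
  rw [mean_psi_mul hn m (Tame.fen β)]
  have e : ∀ g : Cfg n, ∑ a, ∑ b, uEnt m a b g * Dab (a, b) (Fen β) g =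
      n * (β * ∑ s : Fin n → Bool, gibbs β g s * bform m g s s) - n * (β * trU m g) := by
    intro g
    have hab : ∀ a b : Fin n, uEnt m a b g * Dab (a, b) (Fen β) g =
        β * ∑ s : Fin n → Bool, gibbs β g s * (spin (s a) * uEnt m a b g * spin (s b)) -
          if a = b then β * uEnt m a a g else 0 := by
      intro a b
      by_cases h : a = b
      · subst h
        have hb : ∀ s : Fin n → Bool, spin (s a) * uEnt m a a g * spin (s a) = uEnt m a a g :=
          fun s => by
            have := bond_diag a s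
            rw [bond] at this
            linear_combination uEnt m a a g * this
        simp [Dab_Fen_diag, hb, ← sum_mul, gibbs_sum]
      · rw [Dab_Fen β h, if_neg h, sub_zero, mul_left_comm, mul_sum, mul_sum]
        rw [mul_sum]
        exact sum_congr rfl fun s _ => by rw [bond]; ring
    simp only [hab, sum_sub_distrib, sum_ite_eq, mem_univ, if_true, ← mul_sum]
    rw [diag_sum hn]
    congr 1
    · rw [sum_comm_cycle, mul_left_comm]
      congr 1
      rw [mul_sum]
      refine sum_congr rfl fun s _ => ?_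
      simp only [bform, ← mul_sum]
      field_simp
    · ring
  simp only [mean, slope0, e]
  have hS : Tame (fun g : Cfg n => ∑ s : Fin n → Bool, gibbs β g s * bform m g s s) := by
    refine Tame.sum _ fun s _ => (Tame.gibbs β s).mul ?_
    have hb : (fun g : Cfg n => bform m g s s) =
        fun g => (n : ℝ)⁻¹ * ∑ a, ∑ b, (spin (s a) * spin (s b)) * uEnt m a b g := by
      funext g
      simp only [bform, div_eq_inv_mul]
      congr 1
      exact sum_congr rfl fun a _ => sum_congr rfl fun b _ => by ring
    rw [hb]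
    exact Tame.const_mul _ (Tame.sum _ fun a _ => Tame.sum _ fun b _ =>
      Tame.const_mul _ (Tame.uEnt m a b))
  rw [integral_sub (Tame.const_mul _ (Tame.const_mul _ hS)).integrable
    (Tame.const_mul _ (Tame.const_mul _ (Tame.trU m))).integrable]
  simp only [integral_const_mul]
  field_simp

/-- The variance is bounded below by the squares of the slopes. -/
theorem varLower : VarStmt := by
  intro β hβ K ε hε hε8
  rcases (sum_nonneg fun k _ => by positivity :
      (0 : ℝ) ≤ ∑ k ∈ Icc 3 K, 1 / (k : ℝ)).eq_or_lt with h0 | hH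
  · refine Eventually.of_forall fun n _ => ?_
    rw [← h0, mul_zero]
    exact variance_nonneg _ _
  obtain ⟨H, hHdef⟩ : ∃ H, H = ∑ k ∈ Icc 3 K, 1 / (k : ℝ) := ⟨_, rfl⟩
  simp only [← hHdef] at hH ⊢
  have hT : Tendsto (fun n => β * ∑ k ∈ Icc 3 K, 1 / (k : ℝ) * mean (trC (n := n) (k - 1))) atTop
      (𝓝 0) := by
    simpa using (tendsto_finsetSum (Icc 3 K) fun k _ =>
      (mean_trC_tendsto (k - 1)).const_mul (1 / (k : ℝ))).const_mul β
  have hA := test_lead_tendsto K
  rw [← hHdef] at hA
  filter_upwards [hA.eventually_le_const (show 2 * H < (2 + ε) * H by nlinarith),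
    (negl_testRem K).2.eventually_le_const (show (0 : ℝ) < ε ^ 2 * H / 2 by positivity),
    hT.eventually_le_const (show (0 : ℝ) < ε * H by positivity),
    eventually_ne_atTop 0] with n hlead hrem htr hn hs
  obtain ⟨X, hX⟩ : ∃ X, X = mean (fun g : Cfg n => test K g ^ 2) := ⟨_, rfl⟩
  have hX2 : X ≤ (2 + 4 * ε) * H := by
    have h1 : X = mean (fun g : Cfg n => test K g * lead K g) -
        mean (fun g : Cfg n => test K g * testRem K g) := by
      have e : ∀ g : Cfg n, test K g ^ 2 = test K g * lead K g - test K g * testRem K g -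
          (∑ k ∈ Icc 3 K, 1 / (k : ℝ) * cst (k - 1)) * test K g := fun g => by
        rw [sq]
        nth_rw 2 [test_eq hn K g]
        ring
      simp only [hX, mean, e]
      have hm := mean_test hn K
      simp only [mean] at hm
      rw [integral_sub
          (((tame_test K).mul (tame_lead K)).sub ((tame_test K).mul (tame_testRem K))).integrable
          (Tame.const_mul _ (tame_test K)).integrable,
        integral_sub ((tame_test K).mul (tame_lead K)).integrable
          ((tame_test K).mul (tame_testRem K)).integrable,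
        integral_const_mul, hm, mul_zero, sub_zero]
    have h2 : -mean (fun g : Cfg n => test K g * testRem K g) ≤
        ε / 8 * X + 2 / ε * mean (fun g : Cfg n => testRem K g ^ 2) := by
      simp only [hX, mean, ← integral_neg, ← integral_const_mul]
      rw [← integral_add (Tame.const_mul _ ((tame_test K).pow 2)).integrable
        (Tame.const_mul _ ((tame_testRem K).pow 2)).integrable]
      refine integral_mono ((tame_test K).mul (tame_testRem K)).integrable.neg
        ((Tame.const_mul _ ((tame_test K).pow 2)).add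
          (Tame.const_mul _ ((tame_testRem K).pow 2))).integrable fun g => ?_
      have e : ε / 8 * test K g ^ 2 + 2 / ε * testRem K g ^ 2 + test K g * testRem K g =
          (ε * test K g + 4 * testRem K g) ^ 2 / (8 * ε) := by
        field_simp
        ring
      have : 0 ≤ (ε * test K g + 4 * testRem K g) ^ 2 / (8 * ε) := by positivity
      linarith
    have h3 : 2 / ε * mean (fun g : Cfg n => testRem K g ^ 2) ≤ ε * H := by
      refine (mul_le_mul_of_nonneg_left hrem (by positivity)).trans_eq ?_
      field_simp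
    have h4 : X * (1 - ε / 8) ≤ (2 + 2 * ε) * H := by linarith
    have h5 : (2 + 2 * ε) * H ≤ (2 + 4 * ε) * H * (1 - ε / 8) := by
      nlinarith [mul_nonneg (mul_nonneg hε.le hH.le) (show 0 ≤ 7 / 4 - ε / 2 by linarith)]
    exact le_of_mul_le_mul_right (h4.trans h5) (by linarith)
  obtain ⟨a, ha⟩ : ∃ a, a = mean (fun g : Cfg n => test K g * Fen β g) := ⟨_, rfl⟩
  have ha1 : (1 - 4 * ε) * H ≤ a := by
    rw [ha, mean_test_mul K (Tame.fen β), hHdef, mul_sum]
    have h1 : ∀ k ∈ Icc 3 K, (1 - 2 * ε) * (1 / (k : ℝ)) - β * (1 / (k : ℝ) *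
        mean (trC (n := n) (k - 1))) ≤
          1 / (k : ℝ) * mean (fun g : Cfg n => psi (k - 1) g * Fen β g) := by
      intro k hk
      have hk0 : k - 1 ≠ 0 := by have := (mem_Icc.1 hk).1; omega
      rw [mean_psi_Fen hn, mean_trC, if_neg hk0, sub_zero]
      have := mul_le_mul_of_nonneg_left (hs k hk) (show (0 : ℝ) ≤ 1 / k by positivity)
      linarith
    refine le_trans ?_ (sum_le_sum h1)
    rw [sum_sub_distrib, ← mul_sum, ← mul_sum, ← mul_sum, ← hHdef]
    nlinarith
  rw [(NearOne.moments β n).2]
  obtain ⟨c, hc⟩ : ∃ c, c = mean (Fen (n := n) β) := ⟨_, rfl⟩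
  obtain ⟨s, hsdef⟩ : ∃ s, s = (1 - 4 * ε) / (2 + 4 * ε) := ⟨_, rfl⟩
  have hs0 : 0 ≤ s := hsdef ▸ div_nonneg (by linarith) (by linarith)
  have hFc : Tame (fun g : Cfg n => Fen β g - c) := (Tame.fen β).sub (Tame.const _)
  have hsq : 0 ≤ mean (fun g : Cfg n => (Fen β g - c - s * test K g) ^ 2) :=
    integral_nonneg fun g => sq_nonneg _
  have hexp : mean (fun g : Cfg n => (Fen β g - c - s * test K g) ^ 2) =
      (∫ g : Cfg n, Fen β g ^ 2 ∂gauss (Edge n)) - c ^ 2 - 2 * s * a + s ^ 2 * X := by
    have e : ∀ g : Cfg n, (Fen β g - c - s * test K g) ^ 2 =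
        (Fen β g ^ 2 - 2 * c * Fen β g + c ^ 2) +
          (s ^ 2 * test K g ^ 2 - 2 * s * (test K g * Fen β g) + 2 * s * c * test K g) :=
      fun g => by ring
    have t1 := (Tame.fen (n := n) β).pow 2
    have t2 := Tame.const_mul (2 * c) (Tame.fen (n := n) β)
    have t3 := Tame.const_mul (s ^ 2) ((tame_test (n := n) K).pow 2)
    have t4 := Tame.const_mul (2 * s) ((tame_test (n := n) K).mul (Tame.fen β))
    have t5 := Tame.const_mul (2 * s * c) (tame_test (n := n) K)
    simp only [mean, e]
    rw [integral_add ((t1.sub t2).add (Tame.const _)).integrable ((t3.sub t4).add t5).integrable,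
      integral_add (t1.sub t2).integrable (integrable_const _),
      integral_sub t1.integrable t2.integrable,
      integral_add (t3.sub t4).integrable t5.integrable,
      integral_sub t3.integrable t4.integrable]
    simp only [integral_const_mul, integral_const, probReal_univ, one_smul]
    have hm := mean_test hn K
    simp only [mean] at hm hX ha hc
    rw [hm, ← hX, ← ha, ← hc]
    ring
  rw [hexp] at hsq
  have hval : (1 / 2 - 2 * ε) ^ 2 / (1 / 2 + ε) * H =
      2 * s * ((1 - 4 * ε) * H) - s ^ 2 * ((2 + 4 * ε) * H) := by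
    rw [hsdef]
    field_simp
    ring
  rw [hval]
  simp only [mean] at hc
  rw [← hc]
  linarith [mul_le_mul_of_nonneg_left ha1 (mul_nonneg two_pos.le hs0),
    mul_le_mul_of_nonneg_left hX2 (sq_nonneg s)]

end Vale.Agent.P146.Div
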