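import Vale.Agent.P146.Div.Assembly
import Vale.Agent.P146.Div.Kernel
import Vale.Agent.P146.Div.Min
import Vale.Agent.P146.Div.Simpson
import Vale.Agent.P146.Div.ShapeStep
import Vale.Agent.P146.Div.Limit.Main
import Vale.Agent.P146.Div.Rec.Main
import Vale.Agent.P146.Div.Guerra
import Vale.Agent.P146.Div.Var
import Vale.Agent.P146.Div.Lower
import Vale.Agent.P146.NearOne.Main

/-!
The variance of the free energy tends to infinity at every inverse temperature from one upwards.
-/

namespace Vale.Agent.P146.Div

open MeasureTheory ProbabilityTheory Filter

/-- The divergence of the variance at every fixed inverse temperature above one. -/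
theorem divergence : DivergenceStmt :=
  divergence_of (marginal shapeBase shapeStep (simpson shapeStep)) lower
    (upper shapeLimit fieldLimit (Rec.recursion shapeLimit kernel)) varLower

/-- The same, including the critical point, as a limit. -/
theorem tendsto_variance {β : ℝ} (hβ : 1 ≤ β) :
    Tendsto (fun n : ℕ => variance (freeEnergy n β) (disorder n)) atTop atTop := by
  rw [tendsto_atTop]
  intro M
  rcases hβ.eq_or_lt with rfl | h
  · obtain ⟨δ, hδ, N, hN⟩ := NearOne.variance_large M
    exact eventually_atTop.2 ⟨N, fun n hn => hN n hn 1 le_rfl (by linarith)⟩
  · exact divergence β h M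

end Vale.Agent.P146.Div
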